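import Mathlib

/-!
Oracle programs, finite oracles and their evaluation.
-/

namespace Vale.Agent.P327

open Filter

/-- characteristic function of a point of Cantor space -/
def chi (x : ℕ → Bool) : ℕ →. ℕ := fun n => Part.some (x n).toNat

/-- programs for recursion in one oracle -/
inductive Prog : Type
  | zero
  | succ
  | left
  | right
  | oracle
  | pair (f g : Prog)
  | comp (f g : Prog)
  | prec (f g : Prog)
  | rfind (f : Prog)

/-- an injective numbering of programs -/
def Prog.num : Prog → ℕ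
  | .zero => Nat.pair 0 0
  | .succ => Nat.pair 1 0
  | .left => Nat.pair 2 0
  | .right => Nat.pair 3 0
  | .oracle => Nat.pair 4 0
  | .pair f g => Nat.pair 5 (Nat.pair f.num g.num)
  | .comp f g => Nat.pair 6 (Nat.pair f.num g.num)
  | .prec f g => Nat.pair 7 (Nat.pair f.num g.num)
  | .rfind f => Nat.pair 8 f.num

lemma Prog.num_injective : Function.Injective Prog.num := by
  intro p
  induction p with
  | pair f g hf hg | comp f g hf hg | prec f g hf hg =>
    intro q h
    cases q <;> simp [Prog.num, Nat.pair_eq_pair] at h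
    rw [hf h.1, hg h.2]
  | rfind f hf =>
    intro q h
    cases q <;> simp [Prog.num, Nat.pair_eq_pair] at h
    rw [hf h]
  | _ =>
    intro q h
    cases q <;> simp [Prog.num, Nat.pair_eq_pair] at h
    rfl

instance : Countable Prog := Prog.num_injective.countable

/-- semantics -/
def Prog.run (O : ℕ →. ℕ) : Prog → ℕ →. ℕ
  | .zero => fun _ => Part.some 0
  | .succ => fun n => Part.some (n + 1)
  | .left => fun n => Part.some n.unpair.1
  | .right => fun n => Part.some n.unpair.2
  | .oracle => O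
  | .pair f g => fun n => (f.run O n).bind fun a => (g.run O n).map (Nat.pair a)
  | .comp f g => fun n => (g.run O n).bind (f.run O)
  | .prec f g => fun p =>
      p.unpair.2.rec (f.run O p.unpair.1) fun y IH =>
        IH.bind fun i => g.run O (Nat.pair p.unpair.1 (Nat.pair y i))
  | .rfind f => fun a => Nat.rfind fun n => (f.run O (Nat.pair a n)).map fun m => decide (m = 0)

lemma exists_prog {O f : ℕ →. ℕ} (h : Nat.RecursiveIn {O} f) : ∃ p : Prog, p.run O = f := by
  induction h with
  | zero => exact ⟨.zero, rfl⟩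
  | succ => exact ⟨.succ, rfl⟩
  | left => exact ⟨.left, rfl⟩
  | right => exact ⟨.right, rfl⟩
  | oracle g hg => exact ⟨.oracle, (Set.mem_singleton_iff.1 hg).symm⟩
  | pair _ _ ih1 ih2 =>
    obtain ⟨p, rfl⟩ := ih1
    obtain ⟨q, rfl⟩ := ih2
    exact ⟨.pair p q, funext fun n => by simp [Prog.run, Seq.seq, Part.map_eq_map]⟩
  | comp _ _ ih1 ih2 =>
    obtain ⟨p, rfl⟩ := ih1
    obtain ⟨q, rfl⟩ := ih2
    exact ⟨.comp p q, rfl⟩
  | prec _ _ ih1 ih2 =>
    obtain ⟨p, rfl⟩ := ih1
    obtain ⟨q, rfl⟩ := ih2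
    exact ⟨.prec p q, rfl⟩
  | rfind _ ih =>
    obtain ⟨p, rfl⟩ := ih
    exact ⟨.rfind p, rfl⟩

lemma run_mono {O O' : ℕ →. ℕ} (h : ∀ q v, v ∈ O q → v ∈ O' q) :
    ∀ (p : Prog) (n v : ℕ), v ∈ p.run O n → v ∈ p.run O' n := by
  intro p
  induction p with
  | oracle => exact h
  | pair f g hf hg =>
    intro n v hv
    obtain ⟨a, ha, hv⟩ := Part.mem_bind_iff.1 hv
    obtain ⟨b, hb, rfl⟩ := (Part.mem_map_iff _).1 hv
    exact Part.mem_bind (hf _ _ ha) (Part.mem_map _ (hg _ _ hb))
  | comp f g hf hg =>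
    intro n v hv
    obtain ⟨a, ha, hb⟩ := Part.mem_bind_iff.1 hv
    exact Part.mem_bind (hg _ _ ha) (hf _ _ hb)
  | prec f g hf hg =>
    intro n v hv
    simp only [Prog.run] at hv ⊢
    generalize n.unpair.2 = k at hv ⊢
    induction k generalizing v with
    | zero => exact hf _ _ hv
    | succ y ih =>
      obtain ⟨i, hi, hv⟩ := Part.mem_bind_iff.1 hv
      exact Part.mem_bind (ih i hi) (hg _ _ hv)
  | rfind f hf =>
    intro n v hv
    have hv := Nat.mem_rfind.1 hv
    refine Nat.mem_rfind.2 ⟨?_, fun {m} hm => ?_⟩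
    · obtain ⟨a, ha, e⟩ := (Part.mem_map_iff _).1 hv.1
      exact (Part.mem_map_iff _).2 ⟨a, hf _ _ ha, e⟩
    · obtain ⟨a, ha, e⟩ := (Part.mem_map_iff _).1 (hv.2 hm)
      exact (Part.mem_map_iff _).2 ⟨a, hf _ _ ha, e⟩
  | _ => intro n v hv; exact hv

/-- the oracle given by `s.1` bits of the number `s.2` -/
def fin (s : ℕ × ℕ) : ℕ →. ℕ := fun q =>
  Part.ofOption (if q < s.1 then some (s.2.testBit q).toNat else none)

lemma mem_fin {s : ℕ × ℕ} {q v : ℕ} : v ∈ fin s q ↔ q < s.1 ∧ v = (s.2.testBit q).toNat := by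
  unfold fin
  split <;> simp_all [eq_comm]

/-- the number formed by the first `m` bits -/
def pre (x : ℕ → Bool) : ℕ → ℕ
  | 0 => 0
  | m + 1 => 2 ^ m * (x m).toNat + pre x m

lemma pre_lt (x : ℕ → Bool) (m : ℕ) : pre x m < 2 ^ m := by
  induction m with
  | zero => simp [pre]
  | succ m ih =>
    rw [pre, pow_succ]
    cases x m <;> simp <;> omega

lemma testBit_pre (x : ℕ → Bool) (m q : ℕ) :
    (pre x m).testBit q = if q < m then x q else false := by
  induction m with
  | zero => simp [pre]
  | succ m ih =>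
    rw [pre, Nat.testBit_two_pow_mul_add _ (pre_lt x m)]
    rcases lt_trichotomy q m with h | h | h
    · rw [if_pos h, ih, if_pos h, if_pos (by omega)]
    · subst h
      rw [if_neg (lt_irrefl _), if_pos (by omega), Nat.sub_self]
      cases x q <;> simp
    · rw [if_neg (by omega), if_neg (by omega)]
      obtain ⟨d, hd⟩ : ∃ d, q - m = d + 1 := ⟨q - m - 1, by omega⟩
      rw [hd]
      cases x m <;> simp [Nat.testBit_succ]

lemma mod_eq_pre {a m : ℕ} {x : ℕ → Bool} (h : ∀ q < m, a.testBit q = x q) :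
    a % 2 ^ m = pre x m := by
  refine Nat.eq_of_testBit_eq fun q => ?_
  rw [Nat.testBit_mod_two_pow, testBit_pre]
  by_cases hq : q < m <;> simp [hq, h]

lemma pre_congr {x y : ℕ → Bool} {m : ℕ} (h : ∀ q < m, x q = y q) : pre x m = pre y m := by
  refine Nat.eq_of_testBit_eq fun q => ?_
  rw [testBit_pre, testBit_pre]
  by_cases hq : q < m <;> simp [hq, h]

lemma pre_mod (x : ℕ → Bool) {m M : ℕ} (h : m ≤ M) : pre x M % 2 ^ m = pre x m :=
  mod_eq_pre fun q hq => by rw [testBit_pre, if_pos (by omega)]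

lemma run_use (x : ℕ → Bool) :
    ∀ (p : Prog) (n v : ℕ), v ∈ p.run (chi x) n →
      ∀ᶠ m in atTop, v ∈ p.run (fin (m, pre x m)) n := by
  intro p
  induction p with
  | oracle =>
    intro n v hv
    refine eventually_atTop.2 ⟨n + 1, fun m hm => mem_fin.2 ⟨by simp only; omega, ?_⟩⟩
    simp only [Prog.run, chi, Part.mem_some_iff] at hv
    rw [hv, testBit_pre, if_pos (by omega)]
  | pair f g hf hg =>
    intro n v hv
    obtain ⟨a, ha, hv⟩ := Part.mem_bind_iff.1 hv
    obtain ⟨b, hb, rfl⟩ := (Part.mem_map_iff _).1 hv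
    filter_upwards [hf _ _ ha, hg _ _ hb] with m h1 h2
    exact Part.mem_bind h1 (Part.mem_map _ h2)
  | comp f g hf hg =>
    intro n v hv
    obtain ⟨a, ha, hb⟩ := Part.mem_bind_iff.1 hv
    filter_upwards [hg _ _ ha, hf _ _ hb] with m h1 h2
    exact Part.mem_bind h1 h2
  | prec f g hf hg =>
    intro n v hv
    simp only [Prog.run] at hv ⊢
    generalize n.unpair.2 = k at hv ⊢
    induction k generalizing v with
    | zero => exact hf _ _ hv
    | succ y ih =>
      obtain ⟨i, hi, hv⟩ := Part.mem_bind_iff.1 hv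
      filter_upwards [ih i hi, hg _ _ hv] with m h1 h2
      exact Part.mem_bind h1 h2
  | rfind f hf =>
    intro n v hv
    have hv := Nat.mem_rfind.1 hv
    obtain ⟨a, ha, ea⟩ := (Part.mem_map_iff _).1 hv.1
    choose b hb eb using fun (j : Fin v) => (Part.mem_map_iff _).1 (hv.2 j.2)
    filter_upwards [hf _ _ ha, eventually_all.2 fun j : Fin v => hf _ _ (hb j)] with m h1 h2
    exact Nat.mem_rfind.2 ⟨(Part.mem_map_iff _).2 ⟨a, h1, ea⟩,
      fun {j} hj => (Part.mem_map_iff _).2 ⟨_, h2 ⟨j, hj⟩, eb ⟨j, hj⟩⟩⟩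
  | _ => intro n v hv; exact Eventually.of_forall fun _ => hv

lemma primrec_two_pow : Primrec fun n : ℕ => 2 ^ n :=
  (Primrec.nat_rec₁ 1 (Primrec.nat_mul.comp Primrec.snd (Primrec.const 2)).to₂).of_eq fun n => by
    induction n with
    | zero => rfl
    | succ n ih => simp [pow_succ, ih]

lemma primrec_testBit : Primrec₂ Nat.testBit := by
  refine (((Primrec.eq.comp (Primrec.nat_mod.comp (Primrec.nat_div.comp Primrec.fst
    (primrec_two_pow.comp Primrec.snd)) (Primrec.const 2)) (Primrec.const 1))).decide).of_eq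
    fun p => ?_
  rw [Nat.testBit_eq_decide_div_mod_eq]

lemma primrec_toNat : Primrec Bool.toNat := Primrec.dom_finite _

lemma partrec_fin : Partrec fun z : (ℕ × ℕ) × ℕ => fin z.1 z.2 := by
  refine Computable.ofOption (Primrec.to_comp ?_)
  exact Primrec.ite (Primrec.nat_lt.comp Primrec.snd (Primrec.fst.comp Primrec.fst))
    (Primrec.option_some.comp
      (primrec_toNat.comp (primrec_testBit.comp (Primrec.snd.comp Primrec.fst) Primrec.snd)))
    (Primrec.const none)

section
variable {σ : Type} [Primcodable σ]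

lemma partrec_pair_case {f g : σ × ℕ →. ℕ} (hf : Partrec f) (hg : Partrec g) :
    Partrec fun z => (f z).bind fun a => (g z).map (Nat.pair a) := by
  have h : Partrec₂ fun (z : σ × ℕ) (a : ℕ) => (g z).map (Nat.pair a) :=
    Partrec.map (f := fun w : (σ × ℕ) × ℕ => g w.1) (hg.comp Computable.fst)
      (g := fun w b => Nat.pair w.2 b)
      (Primrec₂.natPair.to_comp.comp (Computable.snd.comp Computable.fst) Computable.snd).to₂
  exact Partrec.bind hf h

lemma partrec_comp_case {f g : σ × ℕ →. ℕ} (hf : Partrec f) (hg : Partrec g) :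
    Partrec fun z => (g z).bind fun a => f (z.1, a) := by
  have h : Partrec₂ fun (z : σ × ℕ) (a : ℕ) => f (z.1, a) :=
    hf.comp ((Computable.fst.comp Computable.fst).pair Computable.snd)
  exact Partrec.bind hg h

lemma partrec_prec_case {f g : σ × ℕ →. ℕ} (hf : Partrec f) (hg : Partrec g) :
    Partrec fun z : σ × ℕ => (z.2.unpair.2.rec (f (z.1, z.2.unpair.1)) fun y IH =>
        IH.bind fun i => g (z.1, Nat.pair z.2.unpair.1 (Nat.pair y i)) : Part ℕ) := by
  have h : Partrec₂ fun (z : σ × ℕ) (w : ℕ × ℕ) =>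
      g (z.1, Nat.pair z.2.unpair.1 (Nat.pair w.1 w.2)) :=
    hg.comp ((Computable.fst.comp Computable.fst).pair
      (Primrec₂.natPair.to_comp.comp
        (Computable.fst.comp (Computable.unpair.comp (Computable.snd.comp Computable.fst)))
        (Primrec₂.natPair.to_comp.comp (Computable.fst.comp Computable.snd)
          (Computable.snd.comp Computable.snd))))
  exact Partrec.nat_rec (Computable.snd.comp (Computable.unpair.comp Computable.snd))
    (hf.comp (Computable.fst.pair (Computable.fst.comp (Computable.unpair.comp Computable.snd)))) h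

lemma partrec_rfind_case {f : σ × ℕ →. ℕ} (hf : Partrec f) :
    Partrec fun z : σ × ℕ =>
      Nat.rfind fun n => (f (z.1, Nat.pair z.2 n)).map fun m => decide (m = 0) := by
  have h : Partrec₂ fun (z : σ × ℕ) (n : ℕ) =>
      (f (z.1, Nat.pair z.2 n)).map fun m => decide (m = 0) :=
    Partrec.map (f := fun w : (σ × ℕ) × ℕ => f (w.1.1, Nat.pair w.1.2 w.2))
      (hf.comp ((Computable.fst.comp Computable.fst).pair
        (Primrec₂.natPair.to_comp.comp (Computable.snd.comp Computable.fst) Computable.snd)))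
      (g := fun _ m => decide (m = 0))
      ((Primrec.eq.comp Primrec.snd (Primrec.const 0)).decide.to_comp).to₂
  exact Partrec.rfind h

end

lemma partrec_run : ∀ p : Prog, Partrec fun z : (ℕ × ℕ) × ℕ => p.run (fin z.1) z.2 := by
  intro p
  induction p with
  | zero => exact (Computable.const 0).partrec
  | succ => exact (Computable.succ.comp Computable.snd).partrec
  | left => exact (Computable.fst.comp (Computable.unpair.comp Computable.snd)).partrec
  | right => exact (Computable.snd.comp (Computable.unpair.comp Computable.snd)).partrec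
  | oracle => exact partrec_fin
  | pair f g hf hg => exact partrec_pair_case hf hg
  | comp f g hf hg => exact partrec_comp_case hf hg
  | prec f g hf hg =>
    exact Partrec.of_eq
      (partrec_prec_case (f := fun z : (ℕ × ℕ) × ℕ => f.run (fin z.1) z.2)
        (g := fun z : (ℕ × ℕ) × ℕ => g.run (fin z.1) z.2) hf hg)
      fun z => by simp only [Prog.run]
  | rfind f hf => exact partrec_rfind_case hf

end Vale.Agent.P327
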