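import Mathlib
import Vale.Agent.P327.Programs

/-!
Cantor space: Turing reducibility, oracle search, and category lemmas.
-/

namespace Vale.Agent.P327.Deg

open Filter Topology Set

/-- Turing reducibility of points of Cantor space -/
def Red (z x : ℕ → Bool) : Prop := TuringReducible (chi z) (chi x)

/-- the join of two points -/
def join (x y : ℕ → Bool) : ℕ → Bool :=
  fun n => cond (decide (n % 2 = 0)) (x (n / 2)) (y (n / 2))

/-- the bitwise sum of two points -/
def plus (x y : ℕ → Bool) : ℕ → Bool := fun n => xor (x n) (y n)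

/-- points agreeing with `a` below `k` -/
def cyl (a : ℕ → Bool) (k : ℕ) : Set (ℕ → Bool) := {x | ∀ q < k, x q = a q}

lemma plus_plus (x y : ℕ → Bool) : plus (plus x y) y = x := by
  funext n; simp [plus]

lemma plus_comm (x y : ℕ → Bool) : plus x y = plus y x := by
  funext n; simp [plus, Bool.xor_comm]

lemma plus_assoc (x y z : ℕ → Bool) : plus (plus x y) z = plus x (plus y z) := by
  funext n; simp [plus]

lemma continuous_plus : Continuous fun p : (ℕ → Bool) × (ℕ → Bool) => plus p.1 p.2 := by
  refine continuous_pi fun n => ?_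
  have hx : Continuous fun b : Bool × Bool => xor b.1 b.2 := continuous_of_discreteTopology
  have h1 : Continuous fun p : (ℕ → Bool) × (ℕ → Bool) => (p.1 n, p.2 n) := by fun_prop
  exact hx.comp h1

lemma continuous_join : Continuous fun p : (ℕ → Bool) × (ℕ → Bool) => join p.1 p.2 := by
  refine continuous_pi fun n => ?_
  by_cases h : n % 2 = 0
  · simpa [join, h, Function.comp_def] using! (continuous_apply (n / 2)).comp continuous_fst
  · simpa [join, h, Function.comp_def] using! (continuous_apply (n / 2)).comp continuous_snd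

lemma isOpenMap_plus_right (c : ℕ → Bool) : IsOpenMap fun x => plus x c := by
  have hc : Continuous fun x => plus x c := continuous_plus.comp (Continuous.prodMk_left c)
  exact (Homeomorph.mk ⟨fun x => plus x c, fun x => plus x c, fun x => plus_plus x c,
    fun x => plus_plus x c⟩ hc hc).isOpenMap

lemma continuous_plus_right (c : ℕ → Bool) : Continuous fun x => plus x c :=
  continuous_plus.comp (Continuous.prodMk_left c)

lemma isOpen_cyl (a : ℕ → Bool) (k : ℕ) : IsOpen (cyl a k) :=
  PiNat.isOpen_cylinder (fun _ => Bool) a k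

lemma exists_cyl {O : Set (ℕ → Bool)} (hO : IsOpen O) {x : ℕ → Bool} (hx : x ∈ O) :
    ∃ k, ∀ l, k ≤ l → cyl x l ⊆ O := by
  obtain ⟨V, ⟨y, k, rfl⟩, hxV, hV⟩ :=
    (PiNat.isTopologicalBasis_cylinders fun _ => Bool).exists_subset_of_mem_open hx hO
  refine ⟨k, fun l hl z hz => hV fun q hq => ?_⟩
  rw [hz q (by omega)]
  exact hxV q hq

lemma exists_modulus {f : (ℕ → Bool) → Bool} (hf : Continuous f) :
    ∃ m, ∀ x y, (∀ q < m, x q = y q) → f x = f y := by
  choose k hk using fun x : ℕ → Bool =>
    exists_cyl ((isOpen_discrete {f x}).preimage hf) (show x ∈ f ⁻¹' {f x} from rfl)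
  obtain ⟨t, ht⟩ := isCompact_univ.elim_finite_subcover (fun x => cyl x (k x))
    (fun x => isOpen_cyl x _) fun x _ => Set.mem_iUnion.2 ⟨x, fun q _ => rfl⟩
  refine ⟨t.sup k, fun x y hxy => ?_⟩
  obtain ⟨z, hz, hxz⟩ := Set.mem_iUnion₂.1 (ht (Set.mem_univ x))
  have hyz : y ∈ cyl z (k z) := fun q hq =>
    (hxy q (hq.trans_le (Finset.le_sup (f := k) hz))).symm.trans (hxz q hq)
  have h1 : f x = f z := hk z (k z) le_rfl hxz
  have h2 : f y = f z := hk z (k z) le_rfl hyz
  rw [h1, h2]

lemma exists_modulus_prefix {g : (ℕ → Bool) → (ℕ → Bool)} (hg : Continuous g) (m : ℕ) :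
    ∃ M, ∀ x y, (∀ q < M, x q = y q) → ∀ q < m, g x q = g y q := by
  choose μ hμ using fun q => exists_modulus ((continuous_apply q).comp hg)
  exact ⟨(Finset.range m).sup μ, fun x y h q hq => hμ q x y fun r hr =>
    h r (hr.trans_le (Finset.le_sup (Finset.mem_range.2 hq)))⟩

/-! ### Reducibility -/

lemma red_refl (x : ℕ → Bool) : Red x x := TuringReducible.refl _

lemma red_trans {x y z : ℕ → Bool} (h : Red x y) (h' : Red y z) : Red x z :=
  TuringReducible.trans h h'

lemma lift {O : Set (ℕ →. ℕ)} {f : ℕ → ℕ} (hf : Computable f) :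
    Nat.RecursiveIn O fun n => Part.some (f n) :=
  (Partrec.nat_iff.1 hf.partrec).recursiveIn

lemma recursiveIn_pre (x : ℕ → Bool) :
    Nat.RecursiveIn {chi x} fun p => Part.some (pre x p.unpair.2) := by
  have hstep : Nat.RecursiveIn {chi x} fun w =>
      Part.some (2 ^ w.unpair.2.unpair.1 * (x w.unpair.2.unpair.1).toNat
        + w.unpair.2.unpair.2) := by
    have hy : Nat.RecursiveIn {chi x} fun w => Part.some (w.unpair.2.unpair.1) :=
      lift (Computable.fst.comp (Computable.unpair.comp
        (Computable.snd.comp Computable.unpair)))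
    have hi : Nat.RecursiveIn {chi x} fun w => Part.some w.unpair.2 :=
      lift (Computable.snd.comp Computable.unpair)
    have hcomb : Computable fun w : ℕ => 2 ^ w.unpair.2.unpair.2.unpair.1 * w.unpair.1
        + w.unpair.2.unpair.2.unpair.2 := by
      have e : Computable fun w : ℕ => w.unpair.2.unpair.2.unpair :=
        Computable.unpair.comp (Computable.snd.comp (Computable.unpair.comp
          (Computable.snd.comp Computable.unpair)))
      exact Primrec.nat_add.to_comp.comp
        (Primrec.nat_mul.to_comp.comp (primrec_two_pow.to_comp.comp (Computable.fst.comp e))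
          (Computable.fst.comp Computable.unpair))
        (Computable.snd.comp e)
    refine (Nat.RecursiveIn.comp (lift hcomb) (Nat.RecursiveIn.pair
      (Nat.RecursiveIn.comp (Nat.RecursiveIn.oracle (O := {chi x}) (chi x) rfl) hy)
      (Nat.RecursiveIn.pair hy hi))).of_eq fun w => ?_
    have e : (Part.some w.unpair.2.unpair.1).bind (chi x)
        = Part.some (x w.unpair.2.unpair.1).toNat := Part.bind_some _ _
    simp only [Seq.seq, Bind.bind, Functor.map]
    rw [e]
    simp
  refine (Nat.RecursiveIn.prec (lift (Computable.const 0)) hstep).of_eq fun p => ?_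
  simp only [Nat.unpair_pair, Part.bind_eq_bind]
  induction p.unpair.2 with
  | zero => rfl
  | succ k ih =>
    simp only [pre]
    rw [ih, Part.bind_some]

/-- Unbounded search relative to an oracle. -/
lemma red_of_search {z w : ℕ → Bool} {J : ℕ → ℕ → ℕ → Option Bool}
    (hJ : Computable fun t : ℕ × ℕ × ℕ => J t.1 t.2.1 t.2.2)
    (sound : ∀ i N b, J i N (pre w N) = some b → b = z i)
    (complete : ∀ i, ∃ N b, J i N (pre w N) = some b) : Red z w := by
  -- the answer at step `N`, coded by a number
  obtain ⟨E, hE⟩ : ∃ E : ℕ → ℕ, ∀ t : ℕ,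
      E t = Option.elim (J t.unpair.1 t.unpair.2.unpair.1 t.unpair.2.unpair.2) 0
        (fun b => b.toNat + 1) := ⟨_, fun _ => rfl⟩
  have hEc : Computable E := by
    have hj : Computable fun t : ℕ =>
        J t.unpair.1 t.unpair.2.unpair.1 t.unpair.2.unpair.2 :=
      hJ.comp ((Computable.fst.comp Computable.unpair).pair
        (Computable.unpair.comp (Computable.snd.comp Computable.unpair)))
    have hb : Computable₂ fun (_ : ℕ) (b : Bool) => b.toNat + 1 :=
      (Computable.succ.comp (primrec_toNat.to_comp.comp Computable.snd)).to₂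
    refine (Computable.option_casesOn hj (Computable.const 0) hb).of_eq fun t => ?_
    rw [hE]
    cases J t.unpair.1 t.unpair.2.unpair.1 t.unpair.2.unpair.2 <;> rfl
  have hP : Nat.RecursiveIn {chi w} fun t : ℕ =>
      Part.some (E (Nat.pair t.unpair.1 (Nat.pair t.unpair.2 (pre w t.unpair.2)))) := by
    refine (Nat.RecursiveIn.comp (lift hEc) (Nat.RecursiveIn.pair
      (lift (Computable.fst.comp Computable.unpair)) (Nat.RecursiveIn.pair
      (lift (Computable.snd.comp Computable.unpair))
      (recursiveIn_pre w)))).of_eq fun t => ?_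
    simp [Seq.seq]
  have hg : Computable fun v : ℕ => 1 - v :=
    Primrec.nat_sub.to_comp.comp (Computable.const 1) Computable.id
  have hz : Nat.RecursiveIn {chi w} fun t : ℕ =>
      Part.some (1 - E (Nat.pair t.unpair.1 (Nat.pair t.unpair.2 (pre w t.unpair.2)))) :=
    (Nat.RecursiveIn.comp (lift hg) hP).of_eq fun t => by simp
  have hd : Computable fun v : ℕ => v - 1 :=
    Primrec.nat_sub.to_comp.comp Computable.id (Computable.const 1)
  refine RecursiveIn.iff_nat.2 ((Nat.RecursiveIn.comp (lift hd) (Nat.RecursiveIn.comp hP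
    (Nat.RecursiveIn.pair (lift Computable.id) (Nat.RecursiveIn.rfind hz)))).of_eq fun i => ?_)
  refine Part.eq_some_iff.2 ?_
  obtain ⟨N, b, hN⟩ := complete i
  have hdom : (Nat.rfind fun N => (fun m => decide (m = 0)) <$>
      Part.some (1 - E (Nat.pair (Nat.pair i N).unpair.1
        (Nat.pair (Nat.pair i N).unpair.2 (pre w (Nat.pair i N).unpair.2))))).Dom := by
    refine Nat.rfind_dom.2 ⟨N, ?_, fun {m} _ => trivial⟩
    simp [hE, hN]
  obtain ⟨M, hM⟩ := Part.dom_iff_mem.1 hdom
  have hM' := Nat.rfind_spec hM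
  simp only [Part.map_eq_map, Part.map_some, Part.mem_some_iff, Nat.unpair_pair, hE] at hM'
  rcases hJ' : J i M (pre w M) with - | c
  · simp [hJ'] at hM'
  · have hc := sound i M c hJ'
    simp only [Seq.seq, Bind.bind, Functor.map, id, Part.map_some, Part.bind_some]
    refine Part.mem_bind (a := (z i).toNat + 1) ?_ ?_
    · refine Part.mem_bind (Part.mem_map _ hM) ?_
      simp [hE, hJ', hc]
    · simp [chi]

/-- A computable table applied to a computable prefix of the oracle. -/
lemma red_of_table {x z : ℕ → Bool} {ν : ℕ → ℕ} {g : ℕ → ℕ → Bool} (hν : Computable ν)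
    (hg : Computable₂ g) (h : ∀ n, z n = g n (pre x (ν n))) : Red z x := by
  refine red_of_search (J := fun i N b => if ν i ≤ N then some (g i (b % 2 ^ ν i)) else none)
    ?_ (fun i N b hb => ?_) fun i => ⟨ν i, z i, ?_⟩
  · have hv : Computable fun t : ℕ × ℕ × ℕ => ν t.1 := hν.comp Computable.fst
    have hm : Computable fun t : ℕ × ℕ × ℕ => g t.1 (t.2.2 % 2 ^ ν t.1) :=
      hg.comp Computable.fst (Primrec.nat_mod.to_comp.comp (Computable.snd.comp Computable.snd)
        (primrec_two_pow.to_comp.comp hv))
    refine (Computable.cond ((Primrec.nat_le.comp Primrec.fst Primrec.snd).decide.to_comp.comp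
      (hv.pair (Computable.fst.comp Computable.snd))) (Computable.option_some.comp hm)
      (Computable.const none)).of_eq fun t => ?_
    by_cases hh : ν t.1 ≤ t.2.1 <;> simp [hh]
  · split at hb
    · next hle => rw [h i, ← pre_mod x hle]; exact (Option.some.inj hb).symm
    · simp at hb
  · simp [h i, pre_mod x le_rfl]

lemma red_join_left (x y : ℕ → Bool) : Red x (join x y) :=
  red_of_table (ν := fun n => 2 * n + 1) (g := fun n b => b.testBit (2 * n))
    (Primrec.to_comp (Primrec.nat_add.comp (Primrec.nat_mul.comp (Primrec.const 2) Primrec.id)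
      (Primrec.const 1)))
    (primrec_testBit.comp Primrec.snd
      (Primrec.nat_mul.comp (Primrec.const 2) Primrec.fst)).to_comp.to₂
    fun n => by
      rw [testBit_pre, if_pos (by omega)]
      simp [join, Nat.mul_mod_right]

lemma red_join_right (x y : ℕ → Bool) : Red y (join x y) :=
  red_of_table (ν := fun n => 2 * n + 2) (g := fun n b => b.testBit (2 * n + 1))
    (Primrec.to_comp (Primrec.nat_add.comp (Primrec.nat_mul.comp (Primrec.const 2) Primrec.id)
      (Primrec.const 2)))
    (primrec_testBit.comp Primrec.snd (Primrec.nat_add.comp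
      (Primrec.nat_mul.comp (Primrec.const 2) Primrec.fst) (Primrec.const 1))).to_comp.to₂
    fun n => by
      rw [testBit_pre, if_pos (by omega)]
      simp [join, Nat.add_mod, show (2 * n + 1) / 2 = n by omega]

lemma red_join {x y w : ℕ → Bool} (hx : Red x w) (hy : Red y w) : Red (join x y) w := by
  have h : Computable fun t : ℕ => if t.unpair.1 % 2 = 0 then t.unpair.2.unpair.1
      else t.unpair.2.unpair.2 := by
    refine Primrec.to_comp ?_
    exact Primrec.ite
      (Primrec.eq.comp (Primrec.nat_mod.comp (Primrec.fst.comp Primrec.unpair) (Primrec.const 2))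
        (Primrec.const 0))
      (Primrec.fst.comp (Primrec.unpair.comp (Primrec.snd.comp Primrec.unpair)))
      (Primrec.snd.comp (Primrec.unpair.comp (Primrec.snd.comp Primrec.unpair)))
  have hdiv : Computable fun n : ℕ => n / 2 :=
    (Primrec.nat_div.comp Primrec.id (Primrec.const 2)).to_comp
  refine RecursiveIn.iff_nat.2 ((Nat.RecursiveIn.comp (lift h) (Nat.RecursiveIn.pair
    (lift Computable.id) (Nat.RecursiveIn.pair
      (Nat.RecursiveIn.comp (RecursiveIn.iff_nat.1 hx) (lift hdiv))
      (Nat.RecursiveIn.comp (RecursiveIn.iff_nat.1 hy) (lift hdiv))))).of_eq fun n => ?_)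
  have e1 : (Part.some (n / 2)).bind (chi x) = Part.some (x (n / 2)).toNat := Part.bind_some _ _
  have e2 : (Part.some (n / 2)).bind (chi y) = Part.some (y (n / 2)).toNat := Part.bind_some _ _
  simp only [Seq.seq, Bind.bind, Functor.map]
  rw [e1, e2]
  by_cases hn : n % 2 = 0 <;> simp [hn, chi, join]

lemma red_plus (x y : ℕ → Bool) : Red (plus x y) (join x y) :=
  red_of_table (ν := fun n => 2 * n + 2)
    (g := fun n b => decide (b.testBit (2 * n) ≠ b.testBit (2 * n + 1)))
    (Primrec.to_comp (Primrec.nat_add.comp (Primrec.nat_mul.comp (Primrec.const 2) Primrec.id)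
      (Primrec.const 2)))
    ((PrimrecPred.decide (Primrec.eq.comp
      (primrec_testBit.comp Primrec.snd (Primrec.nat_mul.comp (Primrec.const 2) Primrec.fst))
      (primrec_testBit.comp Primrec.snd (Primrec.nat_add.comp
        (Primrec.nat_mul.comp (Primrec.const 2) Primrec.fst) (Primrec.const 1)))).not)).to_comp.to₂
    fun n => by
      rw [testBit_pre, testBit_pre, if_pos (by omega), if_pos (by omega)]
      simp only [plus, join, show 2 * n % 2 = 0 by omega, show (2 * n + 1) % 2 = 1 by omega,
        show (2 * n + 1) / 2 = n by omega, show 2 * n / 2 = n by omega]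
      cases x n <;> cases y n <;> rfl

lemma red_plus_num (x : ℕ → Bool) (d : ℕ) : Red (plus x d.testBit) x :=
  red_of_table (ν := fun n => n + 1) (g := fun n b => decide (b.testBit n ≠ d.testBit n))
    Computable.succ
    ((PrimrecPred.decide (Primrec.eq.comp (primrec_testBit.comp Primrec.snd Primrec.fst)
      (primrec_testBit.comp (Primrec.const d) Primrec.fst)).not)).to_comp.to₂
    fun n => by
      rw [testBit_pre, if_pos (by omega)]
      simp only [plus]
      cases x n <;> cases d.testBit n <;> rfl

/-! ### Computability -/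

lemma computable_pre {α : Type} [Primcodable α] {f : α → ℕ → Bool} {m : α → ℕ}
    (hf : Computable₂ f) (hm : Computable m) : Computable fun a => pre (f a) (m a) := by
  have h : Computable₂ fun (a : α) (w : ℕ × ℕ) => 2 ^ w.1 * (f a w.1).toNat + w.2 :=
    (Primrec.nat_add.to_comp.comp
      (Primrec.nat_mul.to_comp.comp
        (primrec_two_pow.to_comp.comp (Computable.fst.comp Computable.snd))
        (primrec_toNat.to_comp.comp (hf.comp Computable.fst (Computable.fst.comp Computable.snd))))
      (Computable.snd.comp Computable.snd)).to₂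
  refine (Computable.nat_rec hm (Computable.const 0) h).of_eq fun a => ?_
  induction m a with
  | zero => rfl
  | succ k ih => simp only [pre, ← ih]

lemma computable_table (T : ℕ → ℕ → Bool) (n : ℕ) (hT : ∀ l < n, Computable (T l)) :
    ∃ T' : ℕ → ℕ → Bool, Computable₂ T' ∧ ∀ l < n, ∀ k, T' l k = T l k := by
  induction n with
  | zero => exact ⟨fun _ _ => false, (Computable.const false).to₂, by simp⟩
  | succ n ih =>
    obtain ⟨T', hc, he⟩ := ih fun l hl => hT l (by omega)
    refine ⟨fun l k => cond (decide (l = n)) (T n k) (T' l k),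
      (Computable.cond ((Primrec.eq.comp Primrec.fst (Primrec.const n)).decide.to_comp)
        ((hT n (by omega)).comp Computable.snd) hc).to₂, fun l hl k => ?_⟩
    by_cases h : l = n
    · simp [h]
    · simp [h, he l (by omega) k]

/-! ### Category -/

lemma ev_preimage {α β : Type*} [TopologicalSpace α] [TopologicalSpace β] {f : α → β}
    (hc : Continuous f) (hf : IsOpenMap f) {p : β → Prop} (h : ∀ᶠ y in residual β, p y) :
    ∀ᶠ x in residual α, p (f x) := by
  obtain ⟨S, ho, hd, hS, hsub⟩ := mem_residual_iff.1 h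
  filter_upwards [(countable_bInter_mem hS).2 fun t ht =>
    residual_of_dense_open ((ho t ht).preimage hc) ((hd t ht).preimage hf)] with x hx
  exact hsub fun t ht => Set.mem_iInter₂.1 hx t ht

lemma ev_of_open {α : Type*} [TopologicalSpace α] {W O : Set α} (hW : IsOpen W)
    (h : O ⊆ closure W) : ∀ᶠ x in residual α, x ∈ O → x ∈ W := by
  have hd : Dense (W ∪ (closure O)ᶜ) := by
    rw [dense_iff_closure_eq, closure_union, Set.eq_univ_iff_forall]
    intro x
    by_cases hx : x ∈ closure O
    · exact Or.inl (closure_minimal h isClosed_closure hx)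
    · exact Or.inr (subset_closure hx)
  filter_upwards [residual_of_dense_open (hW.union isClosed_closure.isOpen_compl) hd] with x hx hO
  exact hx.resolve_right fun h' => h' (subset_closure hO)

lemma exists_mem_of_ev {α : Type*} [TopologicalSpace α] [BaireSpace α] {O : Set α}
    (hO : IsOpen O) (hne : O.Nonempty) {p : α → Prop} (h : ∀ᶠ x in residual α, p x) :
    ∃ x ∈ O, p x :=
  (dense_of_mem_residual h).exists_mem_open hO hne |>.elim fun x hx => ⟨x, hx.2, hx.1⟩

lemma exists_piece {α ι : Type*} [TopologicalSpace α] [BaireSpace α] [Countable ι] {O : Set α}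
    (hO : IsOpen O) (hne : O.Nonempty) (C : ι → Set α)
    (h : ∀ᶠ x in residual α, x ∈ O → ∃ i, x ∈ C i) :
    ∃ i, ∃ V : Set α, IsOpen V ∧ V.Nonempty ∧ V ⊆ O ∧ V ⊆ closure (C i) := by
  by_contra hcon
  have hd : ∀ i, ∀ᶠ x in residual α, x ∉ closure (C i ∩ O) := by
    intro i
    refine residual_of_dense_open (s := (closure (C i ∩ O))ᶜ) isClosed_closure.isOpen_compl ?_
    rw [← interior_eq_empty_iff_dense_compl, Set.eq_empty_iff_forall_notMem]
    intro x hx
    obtain ⟨y, hy, hyC⟩ := mem_closure_iff.1 (interior_subset hx) _ isOpen_interior hx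
    exact hcon ⟨i, interior (closure (C i ∩ O)) ∩ O, isOpen_interior.inter hO, ⟨y, hy, hyC.2⟩,
      Set.inter_subset_right, fun z hz => closure_mono Set.inter_subset_left (interior_subset hz.1)⟩
  obtain ⟨x, hxO, hx1, hx2⟩ := exists_mem_of_ev hO hne ((eventually_countable_forall.2 hd).and h)
  obtain ⟨i, hi⟩ := hx2 hxO
  exact hx1 i (subset_closure ⟨hi, hxO⟩)

lemma ev_section {W : Set ((ℕ → Bool) × (ℕ → Bool))} (hW : IsOpen W) {A B : Set (ℕ → Bool)}
    (hA : IsOpen A) (h : A ×ˢ B ⊆ closure W) :
    ∀ᶠ g in residual (ℕ → Bool), g ∈ B →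
      ∀ᶠ x in residual (ℕ → Bool), x ∈ A → (x, g) ∈ W := by
  have key : ∀ c : ℕ × ℕ, ∀ᶠ g in residual (ℕ → Bool), g ∈ B →
      (cyl c.2.testBit c.1 ∩ A).Nonempty →
        ∃ x ∈ cyl c.2.testBit c.1 ∩ A, (x, g) ∈ W := by
    intro c
    by_cases hne : (cyl c.2.testBit c.1 ∩ A).Nonempty
    swap
    · exact Eventually.of_forall fun g _ hn => absurd hn hne
    obtain ⟨V, hV⟩ : ∃ V : Set (ℕ → Bool),
        V = ⋃ x ∈ cyl c.2.testBit c.1 ∩ A, (fun g => (x, g)) ⁻¹' W := ⟨_, rfl⟩
    have hVo : IsOpen V :=
      hV ▸ isOpen_biUnion fun x _ => hW.preimage (Continuous.prodMk_right x)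
    have hsub : B ⊆ closure V := by
      intro g hg
      rw [mem_closure_iff]
      intro U hU hgU
      obtain ⟨x0, hx0⟩ := hne
      obtain ⟨⟨x, g'⟩, ⟨hx, hg'⟩, hw⟩ := mem_closure_iff.1 (h (Set.mk_mem_prod hx0.2 hg))
        _ (((isOpen_cyl _ _).inter hA).prod hU) (Set.mk_mem_prod hx0 hgU)
      exact ⟨g', hg', hV ▸ Set.mem_iUnion₂.2 ⟨x, hx, hw⟩⟩
    filter_upwards [ev_of_open hVo hsub] with g hg hgB _
    have := hg hgB
    rw [hV] at this
    obtain ⟨x, hx, hw⟩ := Set.mem_iUnion₂.1 this
    exact ⟨x, hx, hw⟩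
  filter_upwards [eventually_countable_forall.2 key] with g hg hgB
  refine ev_of_open (W := (fun x => (x, g)) ⁻¹' W)
    (hW.preimage (Continuous.prodMk_left g)) ?_
  intro x hx
  rw [mem_closure_iff]
  intro U hU hxU
  obtain ⟨k, hk⟩ := exists_cyl hU hxU
  have e : ∀ q < k, (pre x k).testBit q = x q := fun q hq => by rw [testBit_pre, if_pos hq]
  obtain ⟨x', hx', hw⟩ := hg (k, pre x k) hgB ⟨x, fun q hq => (e q hq).symm, hx⟩
  exact ⟨x', hk k le_rfl (fun q hq => (hx'.1 q hq).trans (e q hq)), hw⟩

end Vale.Agent.P327.Deg
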