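import Mathlib
import Vale.Agent.P327.Cantor

/-!
Computable approximations of operators on Cantor space, relative to a parameter.
-/

namespace Vale.Agent.P327.Deg

open Filter

/-- on `D`, prefixes of `out z` are computed from prefixes of `inp z` and of `O` -/
def Approx {α : Type*} (O : ℕ → Bool) (inp out : α → (ℕ → Bool)) (D : Set α) : Prop :=
  ∃ K : ℕ × (ℕ × ℕ) × ℕ → ℕ × ℕ, Computable K ∧ ∀ z ∈ D,
    (∀ st l, (K (st, (l, pre (inp z) l), pre O st)).2
      = pre (out z) (K (st, (l, pre (inp z) l), pre O st)).1) ∧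
    ∀ m, ∃ N, ∀ st, N ≤ st → ∀ l, N ≤ l → m ≤ (K (st, (l, pre (inp z) l), pre O st)).1

lemma computable_beq : Computable fun w : ℕ × ℕ => decide (w.1 = w.2) :=
  (Primrec.eq.comp (Primrec.fst : Primrec fun w : ℕ × ℕ => w.1) Primrec.snd).decide.to_comp

lemma exists_attempt (c : Nat.Partrec.Code) :
    ∃ A : ℕ × ℕ × ℕ × ℕ → Option ℕ, Computable A ∧
      ∀ st l a i, (∀ v, A (st, l, a, i) = some v → ∃ j, j ≤ l ∧
          v ∈ c.eval (Nat.pair (Nat.pair j (a % 2 ^ j)) i)) ∧
        ∀ j, j ≤ l → j ≤ st →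
          (∃ v, v ∈ Nat.Partrec.Code.evaln st c (Nat.pair (Nat.pair j (a % 2 ^ j)) i)) →
            ∃ v, A (st, l, a, i) = some v := by
  obtain ⟨h, hh⟩ : ∃ h : ℕ × ℕ × ℕ × ℕ → ℕ × Option ℕ → Option ℕ, ∀ t w, h t w =
      if w.2 = none ∧ w.1 ≤ t.2.1 then
        Nat.Partrec.Code.evaln t.1 c (Nat.pair (Nat.pair w.1 (t.2.2.1 % 2 ^ w.1)) t.2.2.2)
      else w.2 := ⟨_, fun _ _ => rfl⟩
  have hhc : Computable₂ h := by
    have hj : Primrec fun z : (ℕ × ℕ × ℕ × ℕ) × ℕ × Option ℕ => z.2.1 :=
      Primrec.fst.comp Primrec.snd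
    have ht : Primrec fun z : (ℕ × ℕ × ℕ × ℕ) × ℕ × Option ℕ => z.1.2.2 :=
      Primrec.snd.comp (Primrec.snd.comp Primrec.fst)
    have hev : Primrec fun z : (ℕ × ℕ × ℕ × ℕ) × ℕ × Option ℕ =>
        Nat.Partrec.Code.evaln z.1.1 c
          (Nat.pair (Nat.pair z.2.1 (z.1.2.2.1 % 2 ^ z.2.1)) z.1.2.2.2) :=
      Nat.Partrec.Code.primrec_evaln.comp
        (((Primrec.fst.comp Primrec.fst).pair (Primrec.const c)).pair
          (Primrec₂.natPair.comp (Primrec₂.natPair.comp hj
            (Primrec.nat_mod.comp (Primrec.fst.comp ht) (primrec_two_pow.comp hj)))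
            (Primrec.snd.comp ht)))
    refine (Primrec.to_comp (Primrec.ite ?_ hev (Primrec.snd.comp Primrec.snd))).of_eq
      fun z => (hh z.1 z.2).symm
    exact (Primrec.eq.comp (Primrec.snd.comp Primrec.snd) (Primrec.const none)).and
      (Primrec.nat_le.comp hj (Primrec.fst.comp (Primrec.snd.comp Primrec.fst)))
  obtain ⟨R, hR⟩ : ∃ R : ℕ × ℕ × ℕ × ℕ → ℕ → Option ℕ,
      ∀ t, R t 0 = none ∧ ∀ j, R t (j + 1) = h t (j, R t j) :=
    ⟨fun t n => n.rec none fun j r => h t (j, r), fun _ => ⟨rfl, fun _ => rfl⟩⟩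
  refine ⟨fun t => R t (t.1 + 1), ?_, fun st l a i => ⟨fun v hv => ?_, fun j hjl hjs hv => ?_⟩⟩
  · refine (Computable.nat_rec (f := fun t : ℕ × ℕ × ℕ × ℕ => t.1 + 1)
      (g := fun _ => (none : Option ℕ)) (Computable.succ.comp Computable.fst)
      (Computable.const none) hhc).of_eq fun t => ?_
    suffices H : ∀ n, (Nat.rec (motive := fun _ => Option ℕ) none (fun j r => h t (j, r)) n)
        = R t n from H (t.1 + 1)
    intro n
    induction n with
    | zero => exact (hR t).1.symm
    | succ n ih => rw [(hR t).2, ← ih]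
  · suffices H : ∀ n w, R (st, l, a, i) n = some w → ∃ j, j ≤ l ∧
        w ∈ c.eval (Nat.pair (Nat.pair j (a % 2 ^ j)) i) from H _ v hv
    intro n
    induction n with
    | zero => intro w hw; rw [(hR _).1] at hw; cases hw
    | succ n ih =>
      intro w hw
      rw [(hR _).2, hh] at hw
      split at hw
      · next hc => exact ⟨n, hc.2, Nat.Partrec.Code.evaln_sound hw⟩
      · exact ih w hw
  · suffices H : ∀ n, j < n → ∃ w, R (st, l, a, i) n = some w from H _ (by omega)
    intro n
    induction n with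
    | zero => intro hn; omega
    | succ n ih =>
      intro hn
      rw [(hR _).2, hh]
      by_cases hc : R (st, l, a, i) n = none ∧ n ≤ l
      · rw [if_pos hc]
        rcases Nat.lt_succ_iff_lt_or_eq.1 hn with hn | hn
        · obtain ⟨w, hw⟩ := ih hn
          rw [hw] at hc
          exact absurd hc.1 (by simp)
        · subst hn
          exact hv
      · rw [if_neg hc]
        rcases h' : R (st, l, a, i) n with - | w
        · rcases Nat.lt_succ_iff_lt_or_eq.1 hn with hn | hn
          · obtain ⟨w, hw⟩ := ih hn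
            rw [hw] at h'; cases h'
          · subst hn
            exact absurd ⟨h', hjl⟩ hc
        · exact ⟨w, rfl⟩

/-- a program turns into a map on prefixes -/
lemma exists_eval (p : Prog) :
    ∃ K : ℕ × ℕ × ℕ → ℕ × ℕ, Computable K ∧
      ∀ (w f : ℕ → Bool), (∀ i, (f i).toNat ∈ p.run (chi w) i) →
        (∀ st l, (K (st, l, pre w l)).2 = pre f (K (st, l, pre w l)).1) ∧
        ∀ m, ∃ N, ∀ st, N ≤ st → ∀ l, N ≤ l → m ≤ (K (st, l, pre w l)).1 := by
  have hsw : Computable fun w : ℕ => (w.unpair.1.unpair, w.unpair.2) :=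
    (Computable.unpair.comp (Computable.fst.comp Computable.unpair)).pair
      (Computable.snd.comp Computable.unpair)
  obtain ⟨c, hcod⟩ := Nat.Partrec.Code.exists_code.1
    (Partrec.nat_iff.1 (Partrec.comp (f := fun z : (ℕ × ℕ) × ℕ => p.run (fin z.1) z.2)
      (g := fun w : ℕ => (w.unpair.1.unpair, w.unpair.2)) (partrec_run p) hsw))
  obtain ⟨A, hAc, hA⟩ := exists_attempt c
  obtain ⟨h, hh⟩ : ∃ h : ℕ × ℕ × ℕ → ℕ × ℕ × ℕ → ℕ × ℕ, ∀ t w, h t w =
      if w.2.1 = w.1 then (A (t.1, t.2.1, t.2.2, w.1)).elim w.2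
        (fun v => (w.1 + 1, 2 ^ w.1 * v + w.2.2)) else w.2 := ⟨_, fun _ _ => rfl⟩
  have hhc : Computable₂ h := by
    have hi : Computable fun z : (ℕ × ℕ × ℕ) × ℕ × ℕ × ℕ => z.2.1 :=
      Computable.fst.comp Computable.snd
    have hA' : Computable fun z : (ℕ × ℕ × ℕ) × ℕ × ℕ × ℕ =>
        A (z.1.1, z.1.2.1, z.1.2.2, z.2.1) :=
      hAc.comp ((Computable.fst.comp Computable.fst).pair
        ((Computable.fst.comp (Computable.snd.comp Computable.fst)).pair
          ((Computable.snd.comp (Computable.snd.comp Computable.fst)).pair hi)))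
    have hnew : Computable₂ fun (z : (ℕ × ℕ × ℕ) × ℕ × ℕ × ℕ) (v : ℕ) =>
        (z.2.1 + 1, 2 ^ z.2.1 * v + z.2.2.2) :=
      ((Computable.succ.comp (hi.comp Computable.fst)).pair
        (Primrec.nat_add.to_comp.comp
          (Primrec.nat_mul.to_comp.comp (primrec_two_pow.to_comp.comp (hi.comp Computable.fst))
            Computable.snd)
          (Computable.snd.comp (Computable.snd.comp (Computable.snd.comp Computable.fst))))).to₂
    have hpair : Computable fun z : (ℕ × ℕ × ℕ) × ℕ × ℕ × ℕ => (z.2.2.1, z.2.1) :=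
      (Computable.fst.comp (Computable.snd.comp Computable.snd)).pair hi
    have hcond : Computable fun z : (ℕ × ℕ × ℕ) × ℕ × ℕ × ℕ => decide (z.2.2.1 = z.2.1) :=
      Computable.comp (f := fun w : ℕ × ℕ => decide (w.1 = w.2))
        (g := fun z : (ℕ × ℕ × ℕ) × ℕ × ℕ × ℕ => (z.2.2.1, z.2.1)) computable_beq hpair
    refine (Computable.cond hcond
      (Computable.option_casesOn hA' (Computable.snd.comp Computable.snd) hnew)
      (Computable.snd.comp Computable.snd)).of_eq fun z => ?_
    rw [hh]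
    by_cases hz : z.2.2.1 = z.2.1
    · rcases e : A (z.1.1, z.1.2.1, z.1.2.2, z.2.1) with - | v <;> simp [hz, e]
    · simp [hz]
  obtain ⟨R, hR⟩ : ∃ R : ℕ × ℕ × ℕ → ℕ → ℕ × ℕ,
      ∀ t, R t 0 = (0, 0) ∧ ∀ j, R t (j + 1) = h t (j, R t j) :=
    ⟨fun t n => n.rec (0, 0) fun j r => h t (j, r), fun _ => ⟨rfl, fun _ => rfl⟩⟩
  refine ⟨fun t => R t t.1, ?_, fun w f hf => ⟨fun st l => ?_, fun m => ?_⟩⟩
  · refine (Computable.nat_rec (f := fun t : ℕ × ℕ × ℕ => t.1)
      (g := fun _ => ((0, 0) : ℕ × ℕ)) Computable.fst (Computable.const (0, 0)) hhc).of_eq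
      fun t => ?_
    suffices H : ∀ n, (Nat.rec (motive := fun _ => ℕ × ℕ) (0, 0) (fun j r => h t (j, r)) n)
        = R t n from H _
    intro n
    induction n with
    | zero => exact (hR t).1.symm
    | succ n ih => rw [(hR t).2, ← ih]
  · suffices H : ∀ n, (R (st, l, pre w l) n).2 = pre f (R (st, l, pre w l) n).1 from H _
    intro n
    induction n with
    | zero => rw [(hR _).1]; rfl
    | succ n ih =>
      rw [(hR _).2, hh]
      by_cases hn : (R (st, l, pre w l) n).1 = n
      · rw [if_pos hn]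
        rcases hv : A (st, l, pre w l, n) with - | v
        · simpa using ih
        · obtain ⟨j, hj, hv'⟩ := (hA st l (pre w l) n).1 v hv
          rw [hcod] at hv'
          simp only [Nat.unpair_pair] at hv'
          have e : v = (f n).toNat := by
            refine Part.mem_unique (run_mono (fun q u hu => ?_) p n v hv') (hf n)
            obtain ⟨hq, rfl⟩ := mem_fin.1 hu
            simp only at hq ⊢
            rw [pre_mod w hj, testBit_pre, if_pos hq]
            simp [chi]
          simp only [Option.elim, e, ih, hn]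
          rfl
      · rw [if_neg hn]; exact ih
  · have huse : ∀ i : Fin m, ∃ N, ∀ st, N ≤ st → ∀ l, N ≤ l →
        ∃ v, A (st, l, pre w l, (i : ℕ)) = some v := by
      intro i
      obtain ⟨j, hj⟩ := (run_use w p i _ (hf i)).exists
      have hev : (f i).toNat ∈ c.eval (Nat.pair (Nat.pair j (pre w j)) i) := by
        rw [hcod]; simpa using hj
      obtain ⟨s, hs⟩ := Nat.Partrec.Code.evaln_complete.1 hev
      refine ⟨max s j, fun st hst l hl => (hA st l (pre w l) i).2 j (by omega) (by omega)
        ⟨(f i).toNat, ?_⟩⟩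
      rw [pre_mod w (by omega : j ≤ l)]
      exact Nat.Partrec.Code.evaln_mono (by omega) hs
    choose N hN using huse
    refine ⟨max m (Finset.univ.sup N), fun st hst l hl => ?_⟩
    suffices H : ∀ n, n ≤ m → (R (st, l, pre w l) n).1 = n by
      suffices H' : ∀ n, m ≤ n → m ≤ (R (st, l, pre w l) n).1 from H' _ (by omega)
      intro n hn
      induction n, hn using Nat.le_induction with
      | base => rw [H m le_rfl]
      | succ n hn ih =>
        rw [(hR _).2, hh]
        by_cases hc : (R (st, l, pre w l) n).1 = n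
        · rw [if_pos hc]
          rcases A (st, l, pre w l, n) with - | v
          · exact ih
          · simp only [Option.elim]; omega
        · rw [if_neg hc]; exact ih
    intro n
    induction n with
    | zero => intro _; rw [(hR _).1]
    | succ n ih =>
      intro hn
      have hle : N ⟨n, by omega⟩ ≤ Finset.univ.sup N := Finset.le_sup (Finset.mem_univ _)
      obtain ⟨v, hv⟩ := hN ⟨n, by omega⟩ st (by omega) l (by omega)
      simp only at hv
      rw [(hR _).2, hh, if_pos (ih (by omega))]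
      simp only [hv, Option.elim]

lemma exists_join_prefix :
    ∃ jn : (ℕ × ℕ) × ℕ × ℕ → ℕ × ℕ, Computable jn ∧ ∀ (x y : ℕ → Bool) l l',
      jn ((l, pre x l), (l', pre y l')) = (2 * min l l', pre (join x y) (2 * min l l')) := by
  have hb : Computable₂ fun (s : (ℕ × ℕ) × ℕ × ℕ) (q : ℕ) =>
      join s.1.2.testBit s.2.2.testBit q := by
    have hq : Primrec fun w : ((ℕ × ℕ) × ℕ × ℕ) × ℕ =>
        cond (decide (w.2 % 2 = 0)) (w.1.1.2.testBit (w.2 / 2)) (w.1.2.2.testBit (w.2 / 2)) := by
      have hh : Primrec fun w : ((ℕ × ℕ) × ℕ × ℕ) × ℕ => w.2 / 2 :=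
        Primrec.nat_div.comp Primrec.snd (Primrec.const 2)
      have hc : Primrec fun w : ((ℕ × ℕ) × ℕ × ℕ) × ℕ => decide (w.2 % 2 = 0) :=
        (Primrec.eq.comp (Primrec.nat_mod.comp Primrec.snd (Primrec.const 2))
          (Primrec.const 0)).decide
      exact Primrec.cond hc
        (primrec_testBit.comp (Primrec.snd.comp (Primrec.fst.comp Primrec.fst)) hh)
        (primrec_testBit.comp (Primrec.snd.comp (Primrec.snd.comp Primrec.fst)) hh)
    exact hq.to_comp.of_eq fun w => rfl
  have hlen : Computable fun s : (ℕ × ℕ) × ℕ × ℕ => 2 * min s.1.1 s.2.1 :=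
    (Primrec.nat_mul.comp (Primrec.const 2) (Primrec.nat_min.comp (Primrec.fst.comp Primrec.fst)
      (Primrec.fst.comp Primrec.snd))).to_comp
  refine ⟨_, hlen.pair (computable_pre hb hlen), fun x y l l' => ?_⟩
  simp only [Prod.mk.injEq, true_and]
  refine pre_congr fun q hq => ?_
  simp only [join, testBit_pre]
  rw [if_pos (by omega), if_pos (by omega)]

variable {α : Type*}

lemma approx_run (O : ℕ → Bool) (p : Prog) (inp out : α → (ℕ → Bool)) :
    Approx O inp out {z | ∀ i, (out z i).toNat ∈ p.run (chi (inp z)) i} := by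
  obtain ⟨K, hKc, hK⟩ := exists_eval p
  refine ⟨fun t => K (t.1, t.2.1), hKc.comp (Computable.fst.pair
    (Computable.fst.comp Computable.snd)), fun z hz => ?_⟩
  exact hK (inp z) (out z) hz

lemma approx_run_param {O c : ℕ → Bool} (hc : Red c O) (p : Prog)
    (inp out : α → (ℕ → Bool)) :
    Approx O inp out {z | ∀ i, (out z i).toNat ∈ p.run (chi (join (inp z) c)) i} := by
  obtain ⟨q, hq⟩ := exists_prog (RecursiveIn.iff_nat.1 hc)
  obtain ⟨K, hKc, hK⟩ := exists_eval p
  obtain ⟨K', hKc', hK'⟩ := exists_eval q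
  obtain ⟨jn, hjc, hj⟩ := exists_join_prefix
  have h2 := hK' O c fun i => by rw [hq]; simp [chi]
  refine ⟨fun t => K (t.1, jn (t.2.1, K' (t.1, t.1, t.2.2))), hKc.comp (Computable.fst.pair
    (hjc.comp ((Computable.fst.comp Computable.snd).pair (hKc'.comp (Computable.fst.pair
      (Computable.fst.pair (Computable.snd.comp Computable.snd))))))), fun z hz => ?_⟩
  obtain ⟨h1s, h1c⟩ := hK (join (inp z) c) (out z) hz
  have e : ∀ st l, jn ((l, pre (inp z) l), K' (st, st, pre O st)) =
      (2 * min l (K' (st, st, pre O st)).1,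
        pre (join (inp z) c) (2 * min l (K' (st, st, pre O st)).1)) := by
    intro st l
    rw [← hj (inp z) c l (K' (st, st, pre O st)).1, ← h2.1 st st]
  refine ⟨fun st l => ?_, fun m => ?_⟩
  · simp only [e]
    exact h1s _ _
  · obtain ⟨N, hN⟩ := h1c m
    obtain ⟨N', hN'⟩ := h2.2 N
    refine ⟨max N N', fun st hst l hl => ?_⟩
    simp only [e]
    have := hN' st (by omega) st (by omega)
    exact hN st (by omega) _ (by omega)

lemma approx_subset {O : ℕ → Bool} {inp out : α → (ℕ → Bool)} {D D' : Set α}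
    (h : Approx O inp out D) (hD : D' ⊆ D) : Approx O inp out D' := by
  obtain ⟨K, hKc, hK⟩ := h
  exact ⟨K, hKc, fun z hz => hK z (hD hz)⟩

lemma approx_congr {O : ℕ → Bool} {inp out out' : α → (ℕ → Bool)} {D : Set α}
    (h : Approx O inp out D) (he : ∀ z ∈ D, out z = out' z) : Approx O inp out' D := by
  obtain ⟨K, hKc, hK⟩ := h
  refine ⟨K, hKc, fun z hz => ?_⟩
  rw [← he z hz]
  exact hK z hz

lemma approx_comp {O : ℕ → Bool} {inp mid out : α → (ℕ → Bool)} {D D' : Set α}
    (hf : Approx O inp mid D) (hg : Approx O mid out D') :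
    Approx O inp out (D ∩ D') := by
  obtain ⟨K, hKc, hK⟩ := hf
  obtain ⟨K', hKc', hK'⟩ := hg
  refine ⟨fun t => K' (t.1, K t, t.2.2), hKc'.comp (Computable.fst.pair (hKc.pair
    (Computable.snd.comp Computable.snd))), fun z hz => ?_⟩
  obtain ⟨h1, h2⟩ := hK z hz.1
  obtain ⟨h1', h2'⟩ := hK' z hz.2
  have e : ∀ st l, K (st, (l, pre (inp z) l), pre O st) =
      ((K (st, (l, pre (inp z) l), pre O st)).1,
        pre (mid z) (K (st, (l, pre (inp z) l), pre O st)).1) := fun st l => by rw [← h1 st l]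
  refine ⟨fun st l => ?_, fun m => ?_⟩
  · simp only
    rw [e]
    exact h1' _ _
  · obtain ⟨N, hN⟩ := h2' m
    obtain ⟨N', hN'⟩ := h2 N
    refine ⟨max N N', fun st hst l hl => ?_⟩
    simp only
    rw [e]
    exact hN st (by omega) _ (hN' st (by omega) l (by omega))

lemma approx_empty (O : ℕ → Bool) (inp out : α → (ℕ → Bool)) :
    Approx O inp out (∅ : Set α) :=
  ⟨fun _ => (0, 0), Computable.const _, fun z hz => absurd hz (Set.notMem_empty z)⟩

lemma approx_const (O : ℕ → Bool) (inp : α → (ℕ → Bool)) {c : ℕ → Bool} (hc : Computable c)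
    (D : Set α) : Approx O inp (fun _ => c) D := by
  refine ⟨fun t => (t.1, pre c t.1), Computable.fst.pair (computable_pre
    (f := fun (_ : ℕ × (ℕ × ℕ) × ℕ) q => c q) (hc.comp Computable.snd).to₂ Computable.fst),
    fun z _ => ⟨fun st l => rfl, fun m => ⟨m, fun st hst l _ => hst⟩⟩⟩

/-- Definition by cases on finitely many bits of an approximated operator. -/
lemma approx_cases {O : ℕ → Bool} {inp mid out : α → (ℕ → Bool)} {D : Set α} {M : ℕ}
    (hmid : Approx O inp mid D)
    (h : ∀ b < 2 ^ M, Approx O inp out {z | z ∈ D ∧ pre (mid z) M = b}) :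
    Approx O inp out D := by
  obtain ⟨Q, hQc, hQ⟩ := hmid
  suffices H : ∀ n, n ≤ 2 ^ M → Approx O inp out {z | z ∈ D ∧ pre (mid z) M < n} from
    approx_subset (H _ le_rfl) fun z hz => ⟨hz, pre_lt _ _⟩
  intro n
  induction n with
  | zero =>
    intro _
    exact approx_subset (approx_empty O inp out) fun z hz => absurd hz.2 (Nat.not_lt_zero _)
  | succ n ih =>
    intro hn
    obtain ⟨K, hKc, hK⟩ := ih (by omega)
    obtain ⟨K', hKc', hK'⟩ := h n (by omega)
    refine ⟨fun t => cond (decide ((Q t).1 < M)) (0, 0)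
      (cond (decide ((Q t).2 % 2 ^ M = n)) (K' t) (K t)), ?_, fun z hz => ?_⟩
    · exact Computable.cond
        ((Primrec.nat_lt.comp Primrec.id (Primrec.const M)).decide.to_comp.comp
          (Computable.fst.comp hQc))
        (Computable.const (0, 0))
        (Computable.cond ((Primrec.eq.comp (Primrec.nat_mod.comp Primrec.id
          (Primrec.const (2 ^ M))) (Primrec.const n)).decide.to_comp.comp
          (Computable.snd.comp hQc)) hKc' hKc)
    · obtain ⟨q1, q2⟩ := hQ z hz.1
      have low : ∀ st l, M ≤ (Q (st, (l, pre (inp z) l), pre O st)).1 →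
          (Q (st, (l, pre (inp z) l), pre O st)).2 % 2 ^ M = pre (mid z) M := fun st l hl => by
        rw [q1, pre_mod _ hl]
      obtain ⟨N', hN'⟩ := q2 M
      by_cases hb : pre (mid z) M = n
      · obtain ⟨h1, h2⟩ := hK' z ⟨hz.1, hb⟩
        refine ⟨fun st l => ?_, fun m => ?_⟩
        · by_cases hl : (Q (st, (l, pre (inp z) l), pre O st)).1 < M
          · simp [hl, pre]
          · simp only [hl, low st l (Nat.le_of_not_lt hl), hb, decide_true, decide_false,
              cond_true, cond_false]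
            exact h1 st l
        · obtain ⟨N, hN⟩ := h2 m
          refine ⟨max N N', fun st hst l hl => ?_⟩
          have hM := hN' st (by omega) l (by omega)
          simp only [not_lt.2 hM, low st l hM, hb, decide_true, decide_false, cond_true, cond_false]
          exact hN st (by omega) l (by omega)
      · obtain ⟨h1, h2⟩ := hK z ⟨hz.1, by have := hz.2; omega⟩
        refine ⟨fun st l => ?_, fun m => ?_⟩
        · by_cases hl : (Q (st, (l, pre (inp z) l), pre O st)).1 < M
          · simp [hl, pre]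
          · simp only [hl, low st l (Nat.le_of_not_lt hl), hb, decide_false, cond_false]
            exact h1 st l
        · obtain ⟨N, hN⟩ := h2 m
          refine ⟨max N N', fun st hst l hl => ?_⟩
          have hM := hN' st (by omega) l (by omega)
          simp only [not_lt.2 hM, low st l hM, hb, decide_false, cond_false]
          exact hN st (by omega) l (by omega)

/-- Bits read off the iterates of an approximated operator are computable from the start. -/
lemma red_of_approx_iterate {O : ℕ → Bool} {ι β : α → (ℕ → Bool)} {f : α → α}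
    {D : Set α} (hf : Approx O ι (fun z => ι (f z)) D) (hD : ∀ z ∈ D, f z ∈ D)
    (hβ : Approx O ι β D) {x : α} {z : ℕ → Bool} (hx : x ∈ D)
    (hz : ∀ n, z n = β (f^[n] x) 0) : Red z (join (ι x) O) := by
  obtain ⟨K, hKc, hK⟩ := hf
  obtain ⟨K2, hKc2, hK2⟩ := hβ
  obtain ⟨v, hv⟩ : ∃ v, v = ι x := ⟨_, rfl⟩
  rw [← hv]
  -- the two halves of a prefix of the join
  obtain ⟨start, hsc, hst⟩ : ∃ start : ℕ × ℕ → (ℕ × ℕ) × ℕ, Computable start ∧
      ∀ N, start (N, pre (join v O) N) = ((N / 2, pre v (N / 2)), pre O (N / 2)) := by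
    have h1 : Computable₂ fun (s : ℕ × ℕ) (q : ℕ) => s.2.testBit (2 * q) :=
      (primrec_testBit.comp (Primrec.snd.comp Primrec.fst)
        (Primrec.nat_mul.comp (Primrec.const 2) Primrec.snd)).to_comp.to₂
    have h2 : Computable₂ fun (s : ℕ × ℕ) (q : ℕ) => s.2.testBit (2 * q + 1) :=
      (primrec_testBit.comp (Primrec.snd.comp Primrec.fst) (Primrec.nat_add.comp
        (Primrec.nat_mul.comp (Primrec.const 2) Primrec.snd) (Primrec.const 1))).to_comp.to₂
    have hh : Computable fun s : ℕ × ℕ => s.1 / 2 :=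
      (Primrec.nat_div.comp Primrec.fst (Primrec.const 2)).to_comp
    refine ⟨_, (hh.pair (computable_pre h1 hh)).pair (computable_pre h2 hh), fun N => ?_⟩
    simp only [Prod.mk.injEq, true_and]
    constructor
    · refine pre_congr fun q hq => ?_
      rw [testBit_pre, if_pos (by omega)]
      simp [join, Nat.mul_mod_right]
    · refine pre_congr fun q hq => ?_
      rw [testBit_pre, if_pos (by omega)]
      simp [join, Nat.add_mod, show (2 * q + 1) / 2 = q by omega]
  obtain ⟨It, hIt0, hIts⟩ : ∃ It : ℕ × (ℕ × ℕ) × ℕ → ℕ → ℕ × ℕ,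
      (∀ t, It t 0 = t.2.1) ∧ ∀ t n, It t (n + 1) = K (t.1, It t n, t.2.2) :=
    ⟨fun t n => n.rec t.2.1 fun _ r => K (t.1, r, t.2.2), fun _ => rfl, fun _ _ => rfl⟩
  have hItc : Computable₂ It := by
    have hh : Computable₂ fun (s : (ℕ × (ℕ × ℕ) × ℕ) × ℕ) (w : ℕ × ℕ × ℕ) =>
        K (s.1.1, w.2, s.1.2.2) :=
      (hKc.comp ((Computable.fst.comp (Computable.fst.comp Computable.fst)).pair
        ((Computable.snd.comp Computable.snd).pair
          (Computable.snd.comp (Computable.snd.comp (Computable.fst.comp Computable.fst)))))).to₂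
    refine (Computable.nat_rec (f := fun s : (ℕ × (ℕ × ℕ) × ℕ) × ℕ => s.2)
      (g := fun s => s.1.2.1) Computable.snd
      (Computable.fst.comp (Computable.snd.comp Computable.fst)) hh).of_eq fun s => ?_
    suffices H : ∀ n, (Nat.rec (motive := fun _ => ℕ × ℕ) s.1.2.1
        (fun _ r => K (s.1.1, r, s.1.2.2)) n) = It s.1 n from H _
    intro n
    induction n with
    | zero => exact (hIt0 _).symm
    | succ n ih => rw [hIts, ← ih]
  have hiter : ∀ n, f^[n] x ∈ D := by
    intro n
    induction n with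
    | zero => exact hx
    | succ n ih => rw [Function.iterate_succ_apply']; exact hD _ ih
  have spec : ∀ n st l, (It (st, (l, pre v l), pre O st) n).2 =
      pre (ι (f^[n] x)) (It (st, (l, pre v l), pre O st) n).1 := by
    intro n
    induction n with
    | zero => intro st l; rw [hIt0, hv]; rfl
    | succ n ih =>
      intro st l
      have e : It (st, (l, pre v l), pre O st) n = ((It (st, (l, pre v l), pre O st) n).1,
          pre (ι (f^[n] x)) (It (st, (l, pre v l), pre O st) n).1) := by rw [← ih st l]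
      rw [hIts, Function.iterate_succ_apply']
      simp only
      rw [e]
      exact (hK _ (hiter n)).1 _ _
  have grow : ∀ n m, ∃ N, ∀ st, N ≤ st → ∀ l, N ≤ l →
      m ≤ (It (st, (l, pre v l), pre O st) n).1 := by
    intro n
    induction n with
    | zero => intro m; exact ⟨m, fun st _ l hl => by rw [hIt0]; exact hl⟩
    | succ n ih =>
      intro m
      obtain ⟨N, hN⟩ := (hK _ (hiter n)).2 m
      obtain ⟨N', hN'⟩ := ih N
      refine ⟨max N N', fun st hst' l hl => ?_⟩
      have e : It (st, (l, pre v l), pre O st) n = ((It (st, (l, pre v l), pre O st) n).1,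
          pre (ι (f^[n] x)) (It (st, (l, pre v l), pre O st) n).1) := by rw [← spec n st l]
      rw [hIts]
      simp only
      rw [e]
      exact hN st (by omega) _ (hN' st (by omega) l (by omega))
  obtain ⟨res, hres⟩ : ∃ res : ℕ → ℕ → ℕ → ℕ × ℕ, ∀ i N b, res i N b =
      K2 (N / 2, It (N / 2, (start (N, b)).1, (start (N, b)).2) i, (start (N, b)).2) :=
    ⟨_, fun _ _ _ => rfl⟩
  have hres' : ∀ i N, res i N (pre (join v O) N) =
      K2 (N / 2, ((It (N / 2, (N / 2, pre v (N / 2)), pre O (N / 2)) i).1,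
        pre (ι (f^[i] x)) (It (N / 2, (N / 2, pre v (N / 2)), pre O (N / 2)) i).1),
        pre O (N / 2)) := fun i N => by
    rw [hres, hst, ← spec i (N / 2) (N / 2)]
  refine red_of_search (J := fun i N b =>
    cond (decide (1 ≤ (res i N b).1)) (some ((res i N b).2.testBit 0)) none)
    ?_ (fun i N b hb => ?_) fun i => ?_
  · have hst2 : Computable fun t : ℕ × ℕ × ℕ => t.2.1 / 2 :=
      ((Primrec.nat_div.comp (Primrec.fst.comp Primrec.snd) (Primrec.const 2))).to_comp
    have hI : Computable fun t : ℕ × ℕ × ℕ =>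
        It (t.2.1 / 2, (start (t.2.1, t.2.2)).1, (start (t.2.1, t.2.2)).2) t.1 :=
      hItc.comp (hst2.pair ((Computable.fst.comp (hsc.comp Computable.snd)).pair
        (Computable.snd.comp (hsc.comp Computable.snd)))) Computable.fst
    have hr : Computable fun t : ℕ × ℕ × ℕ => res t.1 t.2.1 t.2.2 :=
      (hKc2.comp (hst2.pair (hI.pair (Computable.snd.comp (hsc.comp Computable.snd))))).of_eq
        fun t => (hres t.1 t.2.1 t.2.2).symm
    exact Computable.cond
      ((Primrec.nat_le.comp (Primrec.const 1) Primrec.id).decide.to_comp.comp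
        (Computable.fst.comp hr))
      (Computable.option_some.comp (primrec_testBit.to_comp.comp
        (Computable.snd.comp hr) (Computable.const 0)))
      (Computable.const none)
  · have h1 := (hK2 _ (hiter i)).1 (N / 2) (It (N / 2, (N / 2, pre v (N / 2)), pre O (N / 2)) i).1
    by_cases hc : 1 ≤ (res i N (pre (join v O) N)).1
    · simp only [hc, decide_true, cond_true, Option.some.injEq] at hb
      rw [hres'] at hb hc
      rw [← hb, hz, h1, testBit_pre, if_pos (by omega)]
    · simp [hc] at hb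
  · obtain ⟨N2, hN2⟩ := (hK2 _ (hiter i)).2 1
    obtain ⟨N, hN⟩ := grow i N2
    obtain ⟨Q, hQ⟩ : ∃ Q, Q = 2 * max N N2 := ⟨_, rfl⟩
    refine ⟨Q, z i, ?_⟩
    have hI := hN (Q / 2) (by omega) (Q / 2) (by omega)
    have hc := hN2 (Q / 2) (by omega) _ hI
    have h1 := (hK2 _ (hiter i)).1 (Q / 2) (It (Q / 2, (Q / 2, pre v (Q / 2)), pre O (Q / 2)) i).1
    have hc' : 1 ≤ (res i Q (pre (join v O) Q)).1 := by rw [hres']; exact hc
    rw [decide_eq_true hc', cond_true, hres', h1, testBit_pre, if_pos (by omega), hz]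

end Vale.Agent.P327.Deg
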