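import Mathlib
import Vale.Agent.P327.Approx

/-!
The shift beyond a fixed position, openness of convergence, and removal of a generic parameter.
-/

namespace Vale.Agent.P327.Deg

open Filter Topology Set

/-- shift the bits from position `k` on -/
def shift (k : ℕ) (z : ℕ → Bool) : ℕ → Bool := fun q => if q < k then z q else z (q + 1)

lemma continuous_shift (k : ℕ) : Continuous (shift k) := by
  refine continuous_pi fun q => ?_
  unfold shift
  split <;> exact continuous_apply _

lemma isOpenMap_shift (k : ℕ) : IsOpenMap (shift k) := by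
  intro O hO
  rw [isOpen_iff_forall_mem_open]
  rintro y ⟨z, hz, rfl⟩
  obtain ⟨l, hl⟩ := exists_cyl hO hz
  refine ⟨cyl (shift k z) (max l k + 1), ?_, isOpen_cyl _ _, fun q _ => rfl⟩
  intro y hy
  refine ⟨fun q => if q < k then y q else if q = k then z k else y (q - 1),
    hl (max l k) (le_max_left _ _) fun q hq => ?_, funext fun q => ?_⟩
  · split
    · next h => rw [hy q (by omega)]; simp [shift, h]
    · next h =>
      split
      · next h' => rw [h']
      · next h' =>
        rw [hy (q - 1) (by omega)]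
        simp only [shift, show ¬ q - 1 < k by omega, if_false]
        congr 1
        omega
  · simp only [shift]
    split
    · next h => rfl
    · next h => simp [show ¬ q + 1 < k by omega, show q + 1 ≠ k by omega]

lemma shift_plus (k : ℕ) (x y : ℕ → Bool) :
    shift k (plus x y) = plus (shift k x) (shift k y) := by
  funext q
  simp only [shift, plus]
  split <;> rfl

lemma red_shift (k : ℕ) (z : ℕ → Bool) : Red (shift k z) z :=
  red_of_table (ν := fun n => n + 2)
    (g := fun n b => if n < k then b.testBit n else b.testBit (n + 1))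
    (Primrec.to_comp (Primrec.nat_add.comp Primrec.id (Primrec.const 2)))
    (Primrec.ite (Primrec.nat_lt.comp Primrec.fst (Primrec.const k))
      (primrec_testBit.comp Primrec.snd Primrec.fst)
      (primrec_testBit.comp Primrec.snd (Primrec.succ.comp Primrec.fst))).to_comp.to₂
    fun n => by
      rw [testBit_pre, testBit_pre, if_pos (show n < n + 2 by omega),
        if_pos (show n + 1 < n + 2 by omega)]
      rfl

lemma iterate_shift_at (k : ℕ) : ∀ (n : ℕ) (x : ℕ → Bool), (shift k)^[n] x k = x (k + n) := by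
  suffices H : ∀ (n : ℕ) (x : ℕ → Bool) q, k ≤ q → (shift k)^[n] x q = x (q + n) from
    fun n x => H n x k le_rfl
  intro n
  induction n with
  | zero => intro x q _; rfl
  | succ n ih =>
    intro x q hq
    rw [Function.iterate_succ_apply, ih (shift k x) q hq]
    simp only [shift, show ¬ q + n < k by omega, if_false]
    congr 1

lemma cyl_mono {a : ℕ → Bool} {k l : ℕ} (h : k ≤ l) : cyl a l ⊆ cyl a k :=
  fun _ hx q hq => hx q (by omega)

lemma isOpen_run (p : Prog) (i b : ℕ) : IsOpen {w : ℕ → Bool | b ∈ p.run (chi w) i} := by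
  rw [isOpen_iff_forall_mem_open]
  intro w hw
  obtain ⟨m, hm⟩ := (run_use w p i b hw).exists
  refine ⟨cyl w m, fun w' hw' => run_mono (fun q u hu => ?_) p i b hm, isOpen_cyl _ _,
    fun q _ => rfl⟩
  obtain ⟨hq, rfl⟩ := mem_fin.1 hu
  simp only at hq ⊢
  rw [testBit_pre, if_pos hq, ← hw' q hq]
  simp [chi]

lemma isOpen_good {α : Type*} [TopologicalSpace α] {h J : α → (ℕ → Bool)} (hh : Continuous h)
    (hJ : Continuous J) (p : Prog) (i : ℕ) :
    IsOpen {z | (h z i).toNat ∈ p.run (chi (J z)) i} := by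
  have e : {z | (h z i).toNat ∈ p.run (chi (J z)) i} =
      ⋃ b : Bool, (fun z => h z i) ⁻¹' {b} ∩ J ⁻¹' {w | b.toNat ∈ p.run (chi w) i} := by
    ext z
    simp
  rw [e]
  exact isOpen_iUnion fun b => ((isOpen_discrete _).preimage ((continuous_apply i).comp hh)).inter
    ((isOpen_run p i _).preimage hJ)

lemma red_of_residual {X0 Y : ℕ → Bool} {O : Set (ℕ → Bool)} (hO : IsOpen O) (hne : O.Nonempty)
    (h : ∀ᶠ v in residual (ℕ → Bool), v ∈ O → Red X0 (join Y v)) : Red X0 Y := by
  obtain ⟨C, hC⟩ : ∃ C : Prog → Set (ℕ → Bool), ∀ p v,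
      v ∈ C p ↔ ∀ i, (X0 i).toNat ∈ p.run (chi (join Y v)) i :=
    ⟨fun p => {v | ∀ i, (X0 i).toNat ∈ p.run (chi (join Y v)) i}, fun _ _ => Iff.rfl⟩
  obtain ⟨p, V, hV, ⟨c, hc⟩, -, hVC⟩ := exists_piece hO hne C (by
    filter_upwards [h] with v hv hvO
    obtain ⟨p, hp⟩ := exists_prog (RecursiveIn.iff_nat.1 (hv hvO))
    exact ⟨p, (hC p v).2 fun i => by simp [hp, chi]⟩)
  obtain ⟨L, hL⟩ := exists_cyl hV hc
  have dense : cyl c L ⊆ closure (C p) := (hL L le_rfl).trans hVC
  obtain ⟨K, hKc, hK⟩ := exists_eval p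
  obtain ⟨jn, hjc, hj⟩ := exists_join_prefix
  obtain ⟨out, hout⟩ : ∃ out : ℕ × ℕ → ℕ × ℕ, ∀ t, out t =
      K (t.1.unpair.1, jn ((t.1.unpair.1, t.2 % 2 ^ t.1.unpair.1),
        (t.1.unpair.1, (2 ^ L * t.1.unpair.2 + pre c L) % 2 ^ t.1.unpair.1))) := ⟨_, fun _ => rfl⟩
  have houtc : Computable out := by
    have hl : Primrec fun t : ℕ × ℕ => t.1.unpair.1 :=
      Primrec.fst.comp (Primrec.unpair.comp Primrec.fst)
    have hy : Primrec fun t : ℕ × ℕ => t.2 % 2 ^ t.1.unpair.1 :=
      Primrec.nat_mod.comp Primrec.snd (primrec_two_pow.comp hl)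
    have hu : Primrec fun t : ℕ × ℕ => (2 ^ L * t.1.unpair.2 + pre c L) % 2 ^ t.1.unpair.1 :=
      Primrec.nat_mod.comp (Primrec.nat_add.comp (Primrec.nat_mul.comp (Primrec.const (2 ^ L))
        (Primrec.snd.comp (Primrec.unpair.comp Primrec.fst))) (Primrec.const (pre c L)))
        (primrec_two_pow.comp hl)
    exact (hKc.comp (hl.to_comp.pair (hjc.comp ((hl.pair hy).to_comp.pair
      (hl.pair hu).to_comp)))).of_eq fun t => (hout t).symm
  refine red_of_search (J := fun i N b =>
    cond (decide (L ≤ N.unpair.1 ∧ i < (out (N, b)).1)) (some ((out (N, b)).2.testBit i)) none)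
    ?_ (fun i N b hb => ?_) fun i => ?_
  · have ho : Computable fun t : ℕ × ℕ × ℕ => out t.2 := houtc.comp Computable.snd
    have hl : Computable fun t : ℕ × ℕ × ℕ => t.2.1.unpair.1 :=
      Computable.fst.comp (Computable.unpair.comp (Computable.fst.comp Computable.snd))
    have hq : Primrec fun w : ℕ × ℕ × ℕ => decide (L ≤ w.1 ∧ w.2.1 < w.2.2) :=
      ((Primrec.nat_le.comp (Primrec.const L) Primrec.fst).and
        (Primrec.nat_lt.comp (Primrec.fst.comp Primrec.snd)
          (Primrec.snd.comp Primrec.snd))).decide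
    have htriple : Computable fun t : ℕ × ℕ × ℕ => (t.2.1.unpair.1, t.1, (out t.2).1) :=
      hl.pair (Computable.fst.pair (Computable.fst.comp ho))
    have hcnd : Computable fun t : ℕ × ℕ × ℕ =>
        decide (L ≤ t.2.1.unpair.1 ∧ t.1 < (out t.2).1) :=
      Computable.comp (f := fun w : ℕ × ℕ × ℕ => decide (L ≤ w.1 ∧ w.2.1 < w.2.2))
        (g := fun t : ℕ × ℕ × ℕ => (t.2.1.unpair.1, t.1, (out t.2).1)) hq.to_comp htriple
    exact Computable.cond hcnd
      (Computable.option_some.comp (primrec_testBit.to_comp.comp (Computable.snd.comp ho)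
        Computable.fst)) (Computable.const none)
  · by_cases hcond : L ≤ N.unpair.1 ∧ i < (out (N, pre (join Y (fun _ => false)) 0)).1 ∧ False
    · exact hcond.2.2.elim
    obtain ⟨l, hl⟩ : ∃ l, l = N.unpair.1 := ⟨_, rfl⟩
    have hlN : l ≤ N := hl ▸ Nat.unpair_left_le N
    obtain ⟨u, hu⟩ : ∃ u, u = (2 ^ L * N.unpair.2 + pre c L) % 2 ^ l := ⟨_, rfl⟩
    by_cases hg : L ≤ N.unpair.1 ∧ i < (out (N, pre Y N)).1
    swap
    · simp [hg] at hb
    rw [decide_eq_true hg, cond_true, Option.some.injEq] at hb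
    have hucyl : u.testBit ∈ cyl c L := fun q hq => by
      rw [hu, Nat.testBit_mod_two_pow, Nat.testBit_two_pow_mul_add _ (pre_lt c L), if_pos hq,
        testBit_pre, if_pos hq]
      simp [show q < l by omega]
    obtain ⟨v, hv, hvC⟩ := mem_closure_iff.1 (dense hucyl) _ (isOpen_cyl u.testBit l)
      (fun q _ => rfl)
    have e1 : u = pre v l := by
      have hlt : u < 2 ^ l := hu ▸ Nat.mod_lt _ (by positivity)
      rw [← Nat.mod_eq_of_lt hlt]
      exact mod_eq_pre fun q hq => (hv q hq).symm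
    have e2 : out (N, pre Y N) = K (l, 2 * min l l, pre (join Y v) (2 * min l l)) := by
      rw [hout]
      simp only
      rw [← hl, pre_mod Y hlN, ← hu, e1, hj]
    have hsound := (hK (join Y v) X0 ((hC p v).1 hvC)).1 l (2 * min l l)
    rw [e2] at hb hg
    rw [← hb, hsound, testBit_pre, if_pos hg.2]
  · obtain ⟨v, hvL, hvC⟩ := mem_closure_iff.1 (dense (show c ∈ cyl c L from fun q _ => rfl)) _
      (isOpen_cyl c L) (fun q _ => rfl)
    obtain ⟨hs, hg⟩ := hK (join Y v) X0 ((hC p v).1 hvC)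
    obtain ⟨N0, hN0⟩ := hg (i + 1)
    obtain ⟨l, hl⟩ : ∃ l, l = max N0 L := ⟨_, rfl⟩
    refine ⟨Nat.pair l (pre v l / 2 ^ L), X0 i, ?_⟩
    have hlow : pre v l % 2 ^ L = pre c L := by
      rw [pre_mod v (by omega)]
      exact pre_congr hvL
    have hu : (2 ^ L * (pre v l / 2 ^ L) + pre c L) % 2 ^ l = pre v l := by
      rw [← hlow, Nat.div_add_mod, Nat.mod_eq_of_lt (pre_lt _ _)]
    have e : out (Nat.pair l (pre v l / 2 ^ L), pre Y (Nat.pair l (pre v l / 2 ^ L))) =
        K (l, 2 * min l l, pre (join Y v) (2 * min l l)) := by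
      rw [hout]
      simp only [Nat.unpair_pair]
      rw [pre_mod Y (Nat.left_le_pair _ _), hu, hj]
    have hlen := hN0 l (by omega) (2 * min l l) (by omega)
    simp only [e, Nat.unpair_pair]
    rw [decide_eq_true ⟨by omega, by omega⟩, cond_true, hs, testBit_pre, if_pos (by omega)]

end Vale.Agent.P327.Deg
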