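import Mathlib
import Vale.Agent.P327.Shift

/-!
Decided cylinders, periods and finite tests for a map that is continuous on a residual set.
-/

namespace Vale.Agent.P327.Deg

open Filter Topology Set

/-- the point with all bits false -/
def zeroSeq : ℕ → Bool := fun _ => false

/-- bit `i` of `F` is `v` almost everywhere on a cylinder -/
def Full (F : (ℕ → Bool) → (ℕ → Bool)) (i : ℕ) (c : ℕ → Bool) (l : ℕ) (v : Bool) : Prop :=
  ∀ᶠ z in residual (ℕ → Bool), z ∈ cyl c l → F z i = v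

/-- `d` is a period of `F` on a cylinder -/
def Period (F : (ℕ → Bool) → (ℕ → Bool)) (a : ℕ → Bool) (k : ℕ) (d : ℕ → Bool) : Prop :=
  (∀ q < k, d q = false) ∧
    ∀ i c l v, k ≤ l → c ∈ cyl a k → Full F i c l v → Full F i (plus c d) l v

lemma plus_zero (x : ℕ → Bool) : plus x zeroSeq = x := by
  funext n; simp [plus, zeroSeq]

lemma plus_cancel (x y : ℕ → Bool) : plus (plus x y) x = y := by
  funext n; simp only [plus]; cases x n <;> cases y n <;> rfl

lemma cyl_eq {a c : ℕ → Bool} {l : ℕ} (h : c ∈ cyl a l) : cyl c l = cyl a l := by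
  ext z
  exact ⟨fun hz q hq => (hz q hq).trans (h q hq), fun hz q hq => (hz q hq).trans (h q hq).symm⟩

lemma cyl_pre (c : ℕ → Bool) (l : ℕ) : cyl (pre c l).testBit l = cyl c l :=
  cyl_eq fun q hq => by rw [testBit_pre, if_pos hq]

lemma mem_cyl_plus {z c d : ℕ → Bool} {l : ℕ} (h : z ∈ cyl c l) :
    plus z d ∈ cyl (plus c d) l := fun q hq => by simp [plus, h q hq]

lemma mem_cyl_low {z a d : ℕ → Bool} {k : ℕ} (h : z ∈ cyl a k) (hd : ∀ q < k, d q = false) :
    plus z d ∈ cyl a k := fun q hq => by simp [plus, h q hq, hd q hq]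

lemma countable_below (w : ℕ → Bool) : {d : ℕ → Bool | Red d w}.Countable := by
  refine (Set.countable_iUnion
    (t := fun p : Prog => {d : ℕ → Bool | p.run (chi w) = chi d}) fun p => ?_).mono ?_
  · refine Set.Subsingleton.countable fun d hd d' hd' => funext fun n => ?_
    have h : chi d n = chi d' n := by rw [← hd, hd']
    simp only [chi, Part.some_inj] at h
    cases hn : d n <;> cases hn' : d' n <;> simp_all
  · intro d hd
    exact Set.mem_iUnion.2 (exists_prog (RecursiveIn.iff_nat.1 hd))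

lemma red_zero (x : ℕ → Bool) : Red zeroSeq x :=
  red_of_table (ν := fun _ => 0) (g := fun _ _ => false) (Computable.const 0)
    (Computable.const false).to₂ fun _ => rfl

lemma red_num (d : ℕ) : Red d.testBit zeroSeq :=
  red_of_table (ν := fun _ => 0) (g := fun n _ => d.testBit n) (Computable.const 0)
    (primrec_testBit.comp (Primrec.const d) Primrec.fst).to_comp.to₂ fun _ => rfl

variable {F : (ℕ → Bool) → (ℕ → Bool)} {D : Set (ℕ → Bool)}

lemma full_mono {i : ℕ} {c c' : ℕ → Bool} {l l' : ℕ} {v : Bool} (hl : l ≤ l')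
    (hc : c' ∈ cyl c l) (h : Full F i c l v) : Full F i c' l' v := by
  filter_upwards [h] with z hz hzc
  exact hz fun q hq => (hzc q (by omega)).trans (hc q hq)

lemma full_local (hD : D ∈ residual (ℕ → Bool)) (hF : ContinuousOn F D) {z : ℕ → Bool}
    (hz : z ∈ D) (i k : ℕ) : ∃ l, k ≤ l ∧ Full F i z l (F z i) := by
  have hci : ContinuousOn (fun y => F y i) D := (continuous_apply i).comp_continuousOn hF
  obtain ⟨U, hU, hUD⟩ := continuousOn_iff'.1 hci {F z i} (isOpen_discrete _)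
  obtain ⟨l, hl⟩ := exists_cyl hU (hUD ▸ ⟨rfl, hz⟩ : z ∈ U ∩ D).1
  refine ⟨max l k, le_max_right _ _, ?_⟩
  filter_upwards [hD] with y hyD hy
  have : y ∈ U ∩ D := ⟨hl _ (le_max_left _ _) hy, hyD⟩
  rw [← hUD] at this
  exact this.1

lemma period_eq (hD : D ∈ residual (ℕ → Bool)) (hF : ContinuousOn F D) {a d : ℕ → Bool}
    {k : ℕ} (hd : Period F a k d) :
    ∀ᶠ z in residual (ℕ → Bool), z ∈ cyl a k → F (plus z d) = F z := by
  have h : ∀ t : ℕ × ℕ × ℕ × Bool, ∀ᶠ z in residual (ℕ → Bool),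
      k ≤ t.2.1 → Full F t.1 t.2.2.1.testBit t.2.1 t.2.2.2 → z ∈ cyl a k →
        z ∈ cyl t.2.2.1.testBit t.2.1 → F (plus z d) t.1 = t.2.2.2 := by
    rintro ⟨i, l, c, v⟩
    by_cases h : k ≤ l ∧ c.testBit ∈ cyl a k ∧ Full F i c.testBit l v
    · obtain ⟨hl, hc, hfull⟩ := h
      filter_upwards [ev_preimage (continuous_plus_right d) (isOpenMap_plus_right d)
        (hd.2 i c.testBit l v hl hc hfull)] with z hz _ _ _ hzc
      exact hz (mem_cyl_plus hzc)
    · refine Eventually.of_forall fun z hl hfull hzA hzc => absurd ⟨hl, ?_, hfull⟩ h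
      simp only at hl hzc
      exact fun q hq => (hzc q (by omega : q < l)).symm.trans (hzA q hq)
  filter_upwards [hD, eventually_countable_forall.2 h] with z hzD hz hzA
  funext i
  obtain ⟨l, hl, hfull⟩ := full_local hD hF hzD i k
  have e : z ∈ cyl (pre z l).testBit l := by rw [cyl_pre]; exact fun q _ => rfl
  exact hz (i, l, pre z l, F z i) hl
    (full_mono le_rfl (fun q hq => by rw [testBit_pre, if_pos hq]) hfull) hzA e

lemma period_red (hD : D ∈ residual (ℕ → Bool)) (hF : ContinuousOn F D)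
    (hiff : ∀ x y, Red x y ↔ Red (F x) (F y)) {a d : ℕ → Bool} {k : ℕ} (hd : Period F a k d) :
    Red d zeroSeq := by
  refine red_of_residual (isOpen_cyl a k) ⟨a, fun q _ => rfl⟩ ?_
  filter_upwards [period_eq hD hF hd] with v hv hvA
  have h1 : Red (plus v d) v := (hiff _ _).2 (by rw [hv hvA]; exact red_refl _)
  have h2 := red_trans (red_plus (plus v d) v) (red_join h1 (red_refl v))
  rw [plus_cancel] at h2
  exact red_trans h2 (red_join_right zeroSeq v)

lemma no_countable_perfect {Ω Y : Set (ℕ → Bool)} (hΩ : IsGδ Ω) (hY : Ω ∩ closure Y = Y)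
    (hne : Y.Nonempty) (hc : Y.Countable)
    (hperf : ∀ y ∈ Y, ∀ U : Set (ℕ → Bool), IsOpen U → y ∈ U → ∃ y' ∈ Y, y' ∈ U ∧ y' ≠ y) :
    False := by
  obtain ⟨K, hK⟩ : ∃ K : Set (ℕ → Bool), K = closure Y := ⟨_, rfl⟩
  haveI : CompactSpace K := isCompact_iff_compactSpace.1 (hK ▸ isClosed_closure.isCompact)
  have hsub : Y ⊆ K := hK ▸ subset_closure
  have hYg : IsGδ ((Subtype.val : K → (ℕ → Bool)) ⁻¹' Y) := by
    have e : (Subtype.val : K → (ℕ → Bool)) ⁻¹' Y = Subtype.val ⁻¹' Ω := by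
      ext x
      constructor
      · intro hx
        have hx' : (x : ℕ → Bool) ∈ Ω ∩ closure Y := by rw [hY]; exact hx
        exact hx'.1
      · intro hx
        have hx' : (x : ℕ → Bool) ∈ Ω ∩ closure Y := ⟨hx, hK ▸ x.2⟩
        rw [hY] at hx'
        exact hx'
    rw [e]
    obtain ⟨T, hTo, hTc, rfl⟩ := hΩ
    rw [Set.preimage_sInter]
    exact IsGδ.biInter hTc fun t ht => ((hTo t ht).preimage continuous_subtype_val).isGδ
  have hYd : Dense ((Subtype.val : K → (ℕ → Bool)) ⁻¹' Y) := by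
    rw [Subtype.dense_iff, Subtype.image_preimage_coe, Set.inter_eq_right.2 hsub]
    rw [hK]
  have hpt : ∀ y ∈ Y, ∀ᶠ x : K in residual K, (x : ℕ → Bool) ≠ y := by
    intro y hy
    refine residual_of_dense_open (s := {x : K | (x : ℕ → Bool) ≠ y})
      (isOpen_ne.preimage continuous_subtype_val) ?_
    rw [dense_iff_inter_open]
    intro U hU hUne
    obtain ⟨x, hx⟩ := hUne
    obtain ⟨V, hV, rfl⟩ := isOpen_induced_iff.1 hU
    obtain ⟨y', hy'V, hy'⟩ := mem_closure_iff.1 (hK.subset x.2) V hV hx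
    by_cases e : y' = y
    · obtain ⟨y'', hy'', hV'', hne''⟩ := hperf y hy V hV (e ▸ hy'V)
      exact ⟨⟨y'', hsub hy''⟩, hV'', hne''⟩
    · exact ⟨⟨y', hsub hy'⟩, hy'V, e⟩
  haveI : Nonempty K := ⟨⟨hne.some, hsub hne.some_mem⟩⟩
  have hev : ∀ᶠ x : K in residual K, ∀ y ∈ Y, (x : ℕ → Bool) ≠ y := by
    haveI := hc.to_subtype
    filter_upwards [eventually_countable_forall.2 fun y : Y => hpt y.1 y.2] with x hx y hy
    exact hx ⟨y, hy⟩
  have hmem : ∀ᶠ x : K in residual K, (x : ℕ → Bool) ∈ Y := residual_of_dense_Gδ hYg hYd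
  obtain ⟨x, -, hx, hxY⟩ := exists_mem_of_ev isOpen_univ Set.univ_nonempty (hev.and hmem)
  exact hx x.1 hxY rfl

/-- Some cylinder has no periods on any of its subcylinders. -/
lemma exists_period_free (hD : D ∈ residual (ℕ → Bool)) (hF : ContinuousOn F D)
    (hiff : ∀ x y, Red x y ↔ Red (F x) (F y)) :
    ∃ (a : ℕ → Bool) (k : ℕ), ∀ l, k ≤ l → ∀ c ∈ cyl a k, ∀ d, Period F c l d → d = zeroSeq := by
  by_contra hcon
  push Not at hcon
  obtain ⟨O, hO⟩ : ∃ O : ℕ → Set (ℕ → Bool), ∀ n z, z ∈ O n ↔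
      ∃ l c d, n ≤ l ∧ z ∈ cyl c l ∧ Period F c l d ∧ d ≠ zeroSeq := ⟨fun n => {z | _}, fun _ _ => Iff.rfl⟩
  have hOres : ∀ n, O n ∈ residual (ℕ → Bool) := by
    intro n
    refine residual_of_dense_open ?_ ?_
    · rw [isOpen_iff_forall_mem_open]
      intro z hz
      obtain ⟨l, c, d, h1, h2, h3, h4⟩ := (hO n z).1 hz
      exact ⟨cyl c l, fun y hy => (hO n y).2 ⟨l, c, d, h1, hy, h3, h4⟩, isOpen_cyl c l, h2⟩
    · rw [dense_iff_inter_open]
      intro U hU hne
      obtain ⟨a, ha⟩ := hne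
      obtain ⟨k, hk⟩ := exists_cyl hU ha
      obtain ⟨l, hl, c, hc, d, hd, hd0⟩ := hcon a (max k n)
      exact ⟨c, hk (max k n) (le_max_left _ _) hc,
        (hO n c).2 ⟨l, c, d, by omega, fun q _ => rfl, hd, hd0⟩⟩
  haveI : Countable {d : ℕ → Bool // Red d zeroSeq} := (countable_below zeroSeq).to_subtype
  have heq : ∀ (t : (ℕ × ℕ) × {d : ℕ → Bool // Red d zeroSeq}), ∀ᶠ z in residual (ℕ → Bool),
      Period F t.1.2.testBit t.1.1 t.2.1 → z ∈ cyl t.1.2.testBit t.1.1 →
        F (plus z t.2.1) = F z := by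
    intro t
    by_cases h : Period F t.1.2.testBit t.1.1 t.2.1
    · filter_upwards [period_eq hD hF h] with z hz _ using hz
    · exact Eventually.of_forall fun z hp => absurd hp h
  have hR : ∀ᶠ z in residual (ℕ → Bool), z ∈ D ∧ (∀ n, z ∈ O n) ∧
      ∀ (t : (ℕ × ℕ) × {d : ℕ → Bool // Red d zeroSeq}),
        Period F t.1.2.testBit t.1.1 t.2.1 → z ∈ cyl t.1.2.testBit t.1.1 →
          F (plus z t.2.1) = F z := by
    filter_upwards [hD, eventually_countable_forall.2 hOres, eventually_countable_forall.2 heq]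
      with z h1 h2 h3 using ⟨h1, h2, h3⟩
  obtain ⟨t, htR, htG, htd⟩ := mem_residual.1 hR
  -- the invariant core
  obtain ⟨Ω, hΩ⟩ : ∃ Ω : Set (ℕ → Bool),
      Ω = ⋂ d ∈ {d : ℕ → Bool | Red d zeroSeq}, (fun z => plus z d) ⁻¹' t := ⟨_, rfl⟩
  have hΩg : IsGδ Ω := by
    rw [hΩ]
    refine IsGδ.biInter (countable_below zeroSeq) fun d _ => ?_
    obtain ⟨T, hTo, hTc, rfl⟩ := htG
    rw [Set.preimage_sInter]
    exact IsGδ.biInter hTc fun s hs => ((hTo s hs).preimage (continuous_plus_right d)).isGδ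
  have hΩr : Ω ∈ residual (ℕ → Bool) := by
    rw [hΩ, countable_bInter_mem (countable_below zeroSeq)]
    exact fun d _ => ev_preimage (continuous_plus_right d) (isOpenMap_plus_right d)
      (residual_of_dense_Gδ htG htd)
  have hΩt : Ω ⊆ t := fun z hz => by
    rw [hΩ] at hz
    have := Set.mem_iInter₂.1 hz zeroSeq (red_refl _)
    simpa only [Set.mem_preimage, plus_zero] using this
  have hinv : ∀ z ∈ Ω, ∀ d, Red d zeroSeq → plus z d ∈ Ω := by
    intro z hz d hd
    rw [hΩ] at hz ⊢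
    refine Set.mem_iInter₂.2 fun e he => ?_
    have := Set.mem_iInter₂.1 hz (plus d e) (red_trans (red_plus d e) (red_join hd he))
    simpa only [Set.mem_preimage, plus_assoc] using this
  obtain ⟨z0, -, hz0⟩ :=
    exists_mem_of_ev isOpen_univ Set.univ_nonempty (show ∀ᶠ z in residual _, z ∈ Ω from hΩr)
  obtain ⟨Y, hY⟩ : ∃ Y : Set (ℕ → Bool), ∀ y, y ∈ Y ↔ y ∈ Ω ∧ F y = F z0 :=
    ⟨{y | y ∈ Ω ∧ F y = F z0}, fun _ => Iff.rfl⟩
  refine no_countable_perfect hΩg ?_ ⟨z0, (hY _).2 ⟨hz0, rfl⟩⟩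
    ((countable_below z0).mono fun y hy => ?_) fun y hy U hU hyU => ?_
  · refine Set.Subset.antisymm ?_ fun y hy => ⟨((hY y).1 hy).1, subset_closure hy⟩
    rintro y ⟨hyΩ, hyc⟩
    refine (hY y).2 ⟨hyΩ, ?_⟩
    have hsubY : Y ⊆ D := fun u hu => (htR (hΩt ((hY u).1 hu).1)).1
    have h1 : F y ∈ closure (F '' Y) :=
      ((hF y (htR (hΩt hyΩ)).1).mono hsubY).mem_closure_image hyc
    have h2 : closure (F '' Y) ⊆ {F z0} :=
      closure_minimal (by rintro _ ⟨u, hu, rfl⟩; exact ((hY u).1 hu).2) isClosed_singleton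
    exact h2 h1
  · exact (hiff _ _).2 (((hY y).1 hy).2 ▸ red_refl _)
  · obtain ⟨hyΩ, hyF⟩ := (hY y).1 hy
    obtain ⟨-, hyO, hyE⟩ := htR (hΩt hyΩ)
    obtain ⟨k, hk⟩ := exists_cyl hU hyU
    obtain ⟨l, c, d, hkl, hyc, hd, hd0⟩ := (hO k y).1 (hyO k)
    have hdK := period_red hD hF hiff hd
    have hd' : Period F (pre c l).testBit l d :=
      ⟨hd.1, fun i c' l' v hl hc' => hd.2 i c' l' v hl (cyl_pre c l ▸ hc')⟩
    have e := hyE ((l, pre c l), ⟨d, hdK⟩) hd' (by rw [cyl_pre]; exact hyc)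
    refine ⟨plus y d, (hY _).2 ⟨hinv y hyΩ d hdK, e.trans hyF⟩,
      hk k le_rfl fun q hq => by simp [plus, hd.1 q (by omega)], fun h => hd0 ?_⟩
    rw [← plus_cancel y d, h]
    funext q
    simp [plus, zeroSeq]

/-- Finitely many bits of finitely many translates determine the first `m` bits. -/
lemma exists_test (hD : D ∈ residual (ℕ → Bool)) (hF : ContinuousOn F D) {a : ℕ → Bool}
    {k : ℕ} (hfree : ∀ d, Period F a k d → d = zeroSeq) (m : ℕ) :
    ∃ N L, m ≤ L ∧ ∃ T ∈ residual (ℕ → Bool), ∀ z ∈ T, ∀ z' ∈ T, z ∈ cyl a k → z' ∈ cyl a k →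
      (∀ d < 2 ^ L, (∀ q < k, d.testBit q = false) →
        ∀ i < N, F (plus z d.testBit) i = F (plus z' d.testBit) i) →
      ∀ q < m, z q = z' q := by
  -- periods at a finite level
  obtain ⟨S, hS⟩ : ∃ S : ℕ → Set (ℕ → Bool), ∀ n u, u ∈ S n ↔
      (∀ q < k, u q = false) ∧ (∃ q < m, u q = true) ∧
        ∀ i < n, ∀ c ∈ cyl a k, ∀ v, Full F i c (n + m + k) v →
          Full F i (plus c u) (n + m + k) v := ⟨fun n => {u | _}, fun _ _ => Iff.rfl⟩
  have hSc : ∀ n, IsClosed (S n) := by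
    intro n
    rw [← isOpen_compl_iff, isOpen_iff_forall_mem_open]
    intro u hu
    refine ⟨cyl u (n + m + k), fun u' hu' h => hu ((hS n u).2 ?_), isOpen_cyl _ _, fun q _ => rfl⟩
    obtain ⟨h1, ⟨q, hq, hq'⟩, h3⟩ := (hS n u').1 h
    refine ⟨fun q hq => (hu' q (by omega)).symm.trans (h1 q hq),
      ⟨q, hq, (hu' q (by omega)).symm.trans hq'⟩, fun i hi c hc v hv => ?_⟩
    exact full_mono le_rfl (fun q hq => by simp [plus, hu' q hq]) (h3 i hi c hc v hv)
  have hSm : ∀ n, S (n + 1) ⊆ S n := by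
    intro n u hu
    obtain ⟨h1, h2, h3⟩ := (hS _ u).1 hu
    refine (hS n u).2 ⟨h1, h2, fun i hi c hc v hv => ?_⟩
    have hpiece : ∀ e : ℕ, ∀ᶠ z in residual (ℕ → Bool), e.testBit ∈ cyl c (n + m + k) →
        z ∈ cyl (plus e.testBit u) (n + 1 + m + k) → F z i = v := by
      intro e
      by_cases he : e.testBit ∈ cyl c (n + m + k)
      · have he' : e.testBit ∈ cyl a k := fun q hq => (he q (by omega)).trans (hc q hq)
        filter_upwards [h3 i (by omega) _ he' v (full_mono (by omega) he hv)] with z hz _ using hz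
      · exact Eventually.of_forall fun z h => absurd h he
    filter_upwards [eventually_countable_forall.2 hpiece] with z hz hzc
    refine hz (pre (plus z u) (n + 1 + m + k)) (fun q hq => ?_) fun q hq => ?_
    · rw [testBit_pre, if_pos (by omega)]
      simp [plus, hzc q hq]
    · simp [plus, testBit_pre, hq]
  obtain ⟨n, hn⟩ : ∃ n, S n = ∅ := by
    by_contra hne
    push Not at hne
    obtain ⟨u, hu⟩ := IsCompact.nonempty_iInter_of_sequence_nonempty_isCompact_isClosed S hSm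
      hne (hSc 0).isCompact hSc
    rw [Set.mem_iInter] at hu
    obtain ⟨hu1, ⟨q, hq, hq'⟩, -⟩ := (hS 0 u).1 (hu 0)
    have hper : Period F a k u := by
      refine ⟨hu1, fun i c l v hl hc hv => ?_⟩
      obtain ⟨-, -, h3⟩ := (hS (i + l + 1) u).1 (hu (i + l + 1))
      have hpiece : ∀ e : ℕ, ∀ᶠ z in residual (ℕ → Bool), e.testBit ∈ cyl c l →
          z ∈ cyl (plus e.testBit u) (i + l + 1 + m + k) → F z i = v := by
        intro e
        by_cases he : e.testBit ∈ cyl c l
        · have he' : e.testBit ∈ cyl a k := fun q hq => (he q (by omega)).trans (hc q hq)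
          filter_upwards [h3 i (by omega) _ he' v (full_mono (by omega) he hv)] with z hz _ using hz
        · exact Eventually.of_forall fun z h => absurd h he
      filter_upwards [eventually_countable_forall.2 hpiece] with z hz hzc
      refine hz (pre (plus z u) (i + l + 1 + m + k)) (fun q hq => ?_) fun q hq => ?_
      · rw [testBit_pre, if_pos (by omega)]
        simp [plus, hzc q hq]
      · simp [plus, testBit_pre, hq]
    rw [hfree u hper] at hq'
    simp [zeroSeq] at hq'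
  obtain ⟨L0, hL0⟩ : ∃ L0, L0 = n + m + k := ⟨_, rfl⟩
  -- witnesses against undecided cylinders
  have hwit : ∀ t : ℕ × ℕ × Bool, ∃ (e : ℕ → Bool) (l : ℕ), L0 ≤ l ∧
      (¬ Full F t.1 t.2.1.testBit L0 t.2.2 →
        e ∈ cyl t.2.1.testBit L0 ∧ Full F t.1 e l (!t.2.2)) := by
    rintro ⟨i, c, v⟩
    by_cases h : Full F i c.testBit L0 v
    · exact ⟨zeroSeq, L0, le_rfl, fun h' => absurd h h'⟩
    obtain ⟨e, heD, hec, hev⟩ : ∃ e ∈ D, e ∈ cyl c.testBit L0 ∧ F e i ≠ v := by
      by_contra hcon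
      push Not at hcon
      apply h
      filter_upwards [hD] with z hzD hzc
      exact hcon z hzD hzc
    obtain ⟨l, hl, hfull⟩ := full_local hD hF heD i L0
    have e' : F e i = !v := by cases hF' : F e i <;> cases v <;> simp_all
    exact ⟨e, l, hl, fun _ => ⟨hec, e' ▸ hfull⟩⟩
  choose we wl hwl hw using hwit
  obtain ⟨L, hL⟩ : ∃ L, L = L0 + ((Finset.range n ×ˢ (Finset.range (2 ^ L0) ×ˢ
      (Finset.univ : Finset Bool))).sup wl) := ⟨_, rfl⟩
  have hsound : ∀ t : ℕ × ℕ × ℕ × Bool × ℕ, ∀ᶠ z in residual (ℕ → Bool),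
      Full F t.1 t.2.2.1.testBit t.2.1 t.2.2.2.1 →
        plus z t.2.2.2.2.testBit ∈ cyl t.2.2.1.testBit t.2.1 →
          F (plus z t.2.2.2.2.testBit) t.1 = t.2.2.2.1 := by
    rintro ⟨i, l, c, v, d⟩
    by_cases h : Full F i c.testBit l v
    · filter_upwards [ev_preimage (continuous_plus_right d.testBit)
        (isOpenMap_plus_right d.testBit) h] with z hz _ using hz
    · exact Eventually.of_forall fun z hp => absurd hp h
  refine ⟨n, L, by omega, _, eventually_countable_forall.2 hsound, ?_⟩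
  intro z hz z' hz' hzA hz'A hsame q hq
  have sound : ∀ y : ℕ → Bool, (∀ t : ℕ × ℕ × ℕ × Bool × ℕ,
      Full F t.1 t.2.2.1.testBit t.2.1 t.2.2.2.1 →
        plus y t.2.2.2.2.testBit ∈ cyl t.2.2.1.testBit t.2.1 →
          F (plus y t.2.2.2.2.testBit) t.1 = t.2.2.2.1) →
      ∀ (i l : ℕ) (c : ℕ → Bool) (v : Bool) (d : ℕ), Full F i c l v →
        plus y d.testBit ∈ cyl c l → F (plus y d.testBit) i = v := fun y hy i l c v d hf hm =>
    hy (i, l, pre c l, v, d)
      (full_mono le_rfl (fun q hq => by rw [testBit_pre, if_pos hq]) hf) (by rw [cyl_pre]; exact hm)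
  -- the two points have the same decided cylinders at level `L0`
  obtain ⟨u, hu⟩ : ∃ u, u = plus z z' := ⟨_, rfl⟩
  by_contra hne
  have hmem : u ∈ S n := by
    refine (hS n u).2 ⟨fun q hq => by simp [hu, plus, hzA q hq, hz'A q hq], ⟨q, hq, ?_⟩,
      fun i hi c hc v hv => ?_⟩
    · simp only [hu, plus]
      revert hne
      cases z q <;> cases z' q <;> decide
    rw [← hL0] at hv ⊢
    by_contra hnot
    -- a witness in the translated cylinder
    obtain ⟨b, hb⟩ : ∃ b, b = pre (plus c u) L0 := ⟨_, rfl⟩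
    obtain ⟨hwc, hwf⟩ := hw (i, b, v) fun hf => hnot (full_mono le_rfl (fun q hq => by
      rw [hb, testBit_pre, if_pos hq]) hf)
    have hmemt : (i, b, v) ∈ Finset.range n ×ˢ (Finset.range (2 ^ L0) ×ˢ
        (Finset.univ : Finset Bool)) := by
      simp only [Finset.mem_product, Finset.mem_range, Finset.mem_univ, and_true]
      exact ⟨hi, hb ▸ pre_lt _ _⟩
    have hwlL : wl (i, b, v) ≤ L := by
      have := Finset.le_sup (f := wl) hmemt
      omega
    obtain ⟨d, hd⟩ : ∃ d, d = pre (plus z' (we (i, b, v))) L := ⟨_, rfl⟩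
    have hdL : d < 2 ^ L := hd ▸ pre_lt _ _
    have hwe : ∀ q < L0, we (i, b, v) q = plus c u q := fun q hq => by
      rw [hwc q hq, hb, testBit_pre, if_pos hq]
    have hdb : ∀ q < L0, d.testBit q = xor (z' q) (plus c u q) := fun q hq => by
      rw [hd, testBit_pre, if_pos (by omega)]
      simp [plus, hwe q hq]
    have hlow : ∀ q < k, d.testBit q = false := fun q hq => by
      rw [hdb q (by omega)]
      simp [plus, hu, hz'A q hq, hzA q hq, hc q hq]
    have h1 : F (plus z d.testBit) i = v := by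
      refine sound z hz i L0 c v d hv fun q hq => ?_
      simp only [plus, hdb q hq, hu]
      cases z q <;> cases z' q <;> cases c q <;> rfl
    have h2 : F (plus z' d.testBit) i = !v := by
      refine sound z' hz' i (wl (i, b, v)) _ (!v) d hwf fun q hq => ?_
      simp only [plus, hd, testBit_pre, if_pos (show q < L by omega)]
      cases z' q <;> cases we (i, b, v) q <;> rfl
    have := hsame d hdL hlow i hi
    rw [h1, h2] at this
    cases v <;> simp at this
  rw [hn] at hmem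
  exact hmem

end Vale.Agent.P327.Deg
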