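import Mathlib
import Vale.Agent.P327.Category

/-!
If the map representing an automorphism is continuous on a residual set, then the inverse
automorphism moves no degree upwards.
-/

namespace Vale.Agent.P327.Deg

open Filter Topology Set

lemma exists_open_good {α : Type*} [TopologicalSpace α] {h J : α → (ℕ → Bool)} {E : Set α}
    (hh : ContinuousOn h E) (hJ : ContinuousOn J E) (p : Prog) (i : ℕ) :
    ∃ W, IsOpen W ∧ ∀ z ∈ E, (z ∈ W ↔ (h z i).toNat ∈ p.run (chi (J z)) i) := by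
  have hS : IsOpen {u : (ℕ → Bool) × (ℕ → Bool) | (u.1 i).toNat ∈ p.run (chi u.2) i} :=
    isOpen_good continuous_fst continuous_snd p i
  obtain ⟨W, hW, hWE⟩ := continuousOn_iff'.1 (hh.prodMk hJ) _ hS
  refine ⟨W, hW, fun z hz => ⟨fun h => ?_, fun h => ?_⟩⟩
  · have : z ∈ W ∩ E := ⟨h, hz⟩
    rw [← hWE] at this
    exact this.1
  · exact (hWE.subset ⟨h, hz⟩ : z ∈ W ∩ E).1

lemma ev_pairs {D : Set (ℕ → Bool)} (hD : D ∈ residual (ℕ → Bool)) :
    ∀ᶠ z in residual ((ℕ → Bool) × (ℕ → Bool)), z.1 ∈ D ∧ z.2 ∈ D ∧ plus z.1 z.2 ∈ D := by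
  have hc : Continuous fun z : (ℕ → Bool) × (ℕ → Bool) => (plus z.1 z.2, z.2) :=
    continuous_plus.prodMk continuous_snd
  have hinv : ∀ z : (ℕ → Bool) × (ℕ → Bool), (plus (plus z.1 z.2) z.2, z.2) = z := fun z => by
    rw [plus_plus]
  have hopen : IsOpenMap fun z : (ℕ → Bool) × (ℕ → Bool) => (plus z.1 z.2, z.2) :=
    (Homeomorph.mk ⟨fun z : (ℕ → Bool) × (ℕ → Bool) => (plus z.1 z.2, z.2),
      fun z : (ℕ → Bool) × (ℕ → Bool) => (plus z.1 z.2, z.2), hinv, hinv⟩ hc hc).isOpenMap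
  filter_upwards [ev_preimage continuous_fst isOpenMap_fst hD,
    ev_preimage continuous_snd isOpenMap_snd hD,
    ev_preimage continuous_plus (isOpenMap_fst.comp hopen) hD] with z h1 h2 h3 using ⟨h1, h2, h3⟩

variable {F G : (ℕ → Bool) → (ℕ → Bool)} {D : Set (ℕ → Bool)}

lemma red_mono_inv (hiff : ∀ x y, Red x y ↔ Red (F x) (F y))
    (hG1 : ∀ y, Red (F (G y)) y) (hG2 : ∀ y, Red y (F (G y))) {u v : ℕ → Bool} (h : Red u v) :
    Red (G u) (G v) :=
  (hiff _ _).2 (red_trans (hG1 u) (red_trans h (hG2 v)))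

lemma red_inv_left (hiff : ∀ x y, Red x y ↔ Red (F x) (F y))
    (hG1 : ∀ y, Red (F (G y)) y) (x : ℕ → Bool) : Red (G (F x)) x :=
  (hiff _ _).2 (hG1 (F x))

lemma red_inv_right (hiff : ∀ x y, Red x y ↔ Red (F x) (F y))
    (hG2 : ∀ y, Red y (F (G y))) (x : ℕ → Bool) : Red x (G (F x)) :=
  (hiff _ _).2 (hG2 (F x))

lemma red_inv_join (hiff : ∀ x y, Red x y ↔ Red (F x) (F y))
    (hG1 : ∀ y, Red (F (G y)) y) (hG2 : ∀ y, Red y (F (G y))) (u v : ℕ → Bool) :
    Red (G (join u v)) (join (G u) (G v)) := by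
  refine (hiff _ _).2 (red_trans (hG1 _) (red_join ?_ ?_))
  · exact red_trans (hG2 u) ((hiff _ _).1 (red_join_left _ _))
  · exact red_trans (hG2 v) ((hiff _ _).1 (red_join_right _ _))

lemma red_image_plus (hiff : ∀ x y, Red x y ↔ Red (F x) (F y))
    (hG1 : ∀ y, Red (F (G y)) y) (hG2 : ∀ y, Red y (F (G y))) (x y : ℕ → Bool) :
    Red (F (plus x y)) (join (F x) (F y)) := by
  have hx : Red x (G (join (F x) (F y))) :=
    (hiff _ _).2 (red_trans (red_join_left _ _) (hG2 _))
  have hy : Red y (G (join (F x) (F y))) :=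
    (hiff _ _).2 (red_trans (red_join_right _ _) (hG2 _))
  exact red_trans ((hiff _ _).1 (red_trans (red_plus x y) (red_join hx hy))) (hG1 _)

lemma exists_box (hD : D ∈ residual (ℕ → Bool)) (hF : ContinuousOn F D)
    (hplus : ∀ x y, Red (F (plus x y)) (join (F x) (F y)))
    {O1 O2 : Set (ℕ → Bool)} (h1 : IsOpen O1) (h2 : IsOpen O2)
    (hn1 : O1.Nonempty) (hn2 : O2.Nonempty) :
    ∃ (p : Prog) (k : ℕ) (a b : ℕ → Bool), (∀ l, k ≤ l → cyl a l ⊆ O1 ∧ cyl b l ⊆ O2) ∧
      ∀ A B, IsOpen A → A ⊆ cyl a k → B ⊆ cyl b k →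
        ∀ᶠ g in residual (ℕ → Bool), g ∈ B → ∀ᶠ z in residual (ℕ → Bool), z ∈ A →
          ∀ i, (F (plus z g) i).toNat ∈ p.run (chi (join (F z) (F g))) i := by
  obtain ⟨E, hE⟩ : ∃ E : Set ((ℕ → Bool) × (ℕ → Bool)),
      E = {z | z.1 ∈ D ∧ z.2 ∈ D ∧ plus z.1 z.2 ∈ D} := ⟨_, rfl⟩
  obtain ⟨C, hC⟩ : ∃ C : Prog → Set ((ℕ → Bool) × (ℕ → Bool)), ∀ p z, z ∈ C p ↔
      z ∈ E ∧ ∀ i, (F (plus z.1 z.2) i).toNat ∈ p.run (chi (join (F z.1) (F z.2))) i :=
    ⟨fun p => {z | _}, fun _ _ => Iff.rfl⟩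
  obtain ⟨p, V, hV, ⟨⟨a, b⟩, hab⟩, hVO, hVC⟩ := exists_piece (h1.prod h2) (hn1.prod hn2) C (by
    filter_upwards [ev_pairs hD] with z hz _
    obtain ⟨p, hp⟩ := exists_prog (RecursiveIn.iff_nat.1 (hplus z.1 z.2))
    exact ⟨p, (hC p z).2 ⟨hE ▸ hz, fun i => by simp [hp, chi]⟩⟩)
  obtain ⟨U, W, hU, hW, haU, hbW, hUW⟩ := isOpen_prod_iff.1 hV a b hab
  obtain ⟨k1, hk1⟩ := exists_cyl hU haU
  obtain ⟨k2, hk2⟩ := exists_cyl hW hbW
  refine ⟨p, max k1 k2, a, b, fun l hl => ⟨fun x hx => ?_, fun y hy => ?_⟩,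
    fun A B hA hAs hBs => ?_⟩
  · exact (hVO (hUW (Set.mk_mem_prod (hk1 l (by omega) hx) hbW))).1
  · exact (hVO (hUW (Set.mk_mem_prod haU (hk2 l (by omega) hy)))).2
  have hh : ContinuousOn (fun z : (ℕ → Bool) × (ℕ → Bool) => F (plus z.1 z.2)) E :=
    hF.comp continuous_plus.continuousOn fun z hz => (hE.subset hz).2.2
  have hJ : ContinuousOn (fun z : (ℕ → Bool) × (ℕ → Bool) => join (F z.1) (F z.2)) E :=
    continuous_join.comp_continuousOn
      ((hF.comp continuous_fst.continuousOn fun z hz => (hE.subset hz).1).prodMk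
        (hF.comp continuous_snd.continuousOn fun z hz => (hE.subset hz).2.1))
  choose Wi hWi hWE using fun i => exists_open_good hh hJ p i
  have hsub : ∀ i, A ×ˢ B ⊆ closure (Wi i) := fun i z hz => by
    refine closure_mono (fun w hw => ?_)
      (hVC (hUW (Set.mk_mem_prod (hk1 _ (le_max_left _ _) (hAs hz.1))
        (hk2 _ (le_max_right _ _) (hBs hz.2)))))
    obtain ⟨hwE, hwi⟩ := (hC p w).1 hw
    exact (hWE i w hwE).2 (hwi i)
  filter_upwards [hD, eventually_countable_forall.2 fun i => ev_section (hWi i) hA (hsub i)]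
    with g hgD hg hgB
  filter_upwards [hD, ev_preimage (continuous_plus_right g) (isOpenMap_plus_right g) hD,
    eventually_countable_forall.2 fun i => hg i hgB] with z hzD hzgD hz hzA i
  exact (hWE i (z, g) (hE ▸ ⟨hzD, hgD, hzgD⟩)).1 (hz i hzA)

/-- Boxes inside a given cylinder on which translation, there and back, is given by programs. -/
lemma exists_boxes (hD : D ∈ residual (ℕ → Bool)) (hF : ContinuousOn F D)
    (hplus : ∀ x y, Red (F (plus x y)) (join (F x) (F y))) (a0 : ℕ → Bool) (k0 : ℕ) :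
    ∃ (p1 p2 : Prog) (k : ℕ) (a b : ℕ → Bool), k0 ≤ k ∧ a ∈ cyl a0 k0 ∧
      ∀ᶠ g in residual (ℕ → Bool), g ∈ cyl b k →
        (∀ᶠ z in residual (ℕ → Bool), z ∈ cyl a k →
          ∀ i, (F (plus z g) i).toNat ∈ p1.run (chi (join (F z) (F g))) i) ∧
        (∀ᶠ z in residual (ℕ → Bool), z ∈ cyl (plus a b) k →
          ∀ i, (F (plus z g) i).toNat ∈ p2.run (chi (join (F z) (F g))) i) := by
  obtain ⟨p1, k1', a1, b1, hsub1, hbox1⟩ := exists_box hD hF hplus (isOpen_cyl a0 k0) isOpen_univ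
    ⟨a0, fun q _ => rfl⟩ Set.univ_nonempty
  obtain ⟨k1, hk1⟩ : ∃ k1, k1 = max k1' k0 := ⟨_, rfl⟩
  obtain ⟨p2, k2, c, b, hsub, hbox2⟩ := exists_box hD hF hplus
    (isOpen_cyl (plus a1 b1) k1) (isOpen_cyl b1 k1) ⟨_, fun q _ => rfl⟩ ⟨_, fun q _ => rfl⟩
  have hcin : ∀ q < k1, c q = plus a1 b1 q := (hsub k2 le_rfl).1 fun q _ => rfl
  have hbin : ∀ q < k1, b q = b1 q := (hsub k2 le_rfl).2 fun q _ => rfl
  obtain ⟨k, hk⟩ : ∃ k, k = max k1 k2 := ⟨_, rfl⟩
  have hA : cyl (plus c b) k ⊆ cyl a1 k1 := fun x hx q hq => by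
    rw [hx q (by omega)]
    simp [plus, hcin q hq, hbin q hq]
  have hB : cyl b k ⊆ cyl b1 k1 := fun x hx q hq => by
    rw [hx q (by omega), hbin q hq]
  refine ⟨p1, p2, k, plus c b, b, by omega,
    (hsub1 k1 (by omega)).1 (hA fun q _ => rfl), ?_⟩
  have e : plus (plus c b) b = c := plus_plus c b
  filter_upwards [hbox1 _ (cyl b k) (isOpen_cyl (plus c b) k)
      (hA.trans (cyl_mono (by omega))) (hB.trans (cyl_mono (by omega))),
    hbox2 (cyl c k) (cyl b k) (isOpen_cyl c k) (cyl_mono (by omega)) (cyl_mono (by omega))]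
    with g h1 h2 hgB
  exact ⟨h1 hgB, e.symm ▸ h2 hgB⟩

/-- Computing a generic point of a cylinder from its image and one generic parameter. -/
lemma exists_stage (hD : D ∈ residual (ℕ → Bool)) (hF : ContinuousOn F D)
    (hiff : ∀ x y, Red x y ↔ Red (F x) (F y))
    (hG1 : ∀ y, Red (F (G y)) y) (hG2 : ∀ y, Red y (F (G y))) :
    ∃ (k : ℕ) (a b : ℕ → Bool), ∀ᶠ g in residual (ℕ → Bool), g ∈ cyl b k →
      ∀ᶠ x in residual (ℕ → Bool), x ∈ cyl a k → Red x (join (F x) (F g)) := by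
  have hplus := red_image_plus hiff hG1 hG2
  obtain ⟨a0, k0, hfree⟩ := exists_period_free hD hF hiff
  obtain ⟨p1, p2, k, a, b, hk0, ha0, hboxes⟩ := exists_boxes hD hF hplus a0 k0
  -- the program for the shift on one subcylinder
  obtain ⟨E, hE⟩ : ∃ E : Set (ℕ → Bool), E = {z | z ∈ D ∧ shift k z ∈ D} := ⟨_, rfl⟩
  have hEr : ∀ᶠ z in residual (ℕ → Bool), z ∈ E := by
    filter_upwards [hD, ev_preimage (continuous_shift k) (isOpenMap_shift k) hD] with z h1 h2
    exact hE ▸ ⟨h1, h2⟩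
  obtain ⟨C, hC⟩ : ∃ C : Prog → Set (ℕ → Bool), ∀ p z,
      z ∈ C p ↔ z ∈ E ∧ ∀ i, (F (shift k z) i).toNat ∈ p.run (chi (F z)) i :=
    ⟨fun p => {z | _}, fun _ _ => Iff.rfl⟩
  obtain ⟨p0, V, hV, ⟨s, hs⟩, hVA, hVC⟩ := exists_piece (isOpen_cyl a k) ⟨a, fun q _ => rfl⟩ C (by
    filter_upwards [hEr] with z hz _
    obtain ⟨p, hp⟩ := exists_prog (RecursiveIn.iff_nat.1 ((hiff _ _).1 (red_shift k z)))
    exact ⟨p, (hC p z).2 ⟨hz, fun i => by simp [hp, chi]⟩⟩)
  obtain ⟨m0, hm0⟩ := exists_cyl hV hs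
  obtain ⟨m, hm⟩ : ∃ m, m = max m0 (k + 1) := ⟨_, rfl⟩
  have hsA : ∀ q < k, s q = a q := hVA hs
  have h0 : ∀ᶠ z in residual (ℕ → Bool), z ∈ cyl s m →
      ∀ i, (F (shift k z) i).toNat ∈ p0.run (chi (F z)) i := by
    choose Wi hWi hWE using fun i => exists_open_good
      (hF.comp (continuous_shift k).continuousOn fun z hz => (hE.subset hz).2)
      (hF.mono fun z hz => (hE.subset hz).1) p0 i
    have hsub : ∀ i, cyl s m ⊆ closure (Wi i) := fun i =>
      (hm0 m (by omega)).trans (hVC.trans (closure_mono fun z hz => by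
        obtain ⟨hzE, hzi⟩ := (hC p0 z).1 hz
        exact (hWE i z hzE).2 (hzi i)))
    filter_upwards [hEr, eventually_countable_forall.2 fun i => ev_of_open (hWi i) (hsub i)]
      with z hzE hz hzs i
    exact (hWE i z hzE).1 (hz i hzs)
  -- finite tests for the first `m` bits
  have hfree' : ∀ d, Period F a k d → d = zeroSeq := fun d hd => hfree k hk0 a ha0 d hd
  obtain ⟨N, L, hmL, T, hTr, hT⟩ := exists_test hD hF hfree' m
  -- generic parameters
  have hpar : ∀ᶠ g in residual (ℕ → Bool), ∀ d : ℕ,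
      plus g d.testBit ∈ cyl b k →
        (∀ᶠ z in residual (ℕ → Bool), z ∈ cyl (plus a b) k →
          ∀ i, (F (plus z (plus g d.testBit)) i).toNat ∈
            p2.run (chi (join (F z) (F (plus g d.testBit)))) i) := by
    refine eventually_countable_forall.2 fun d => ?_
    filter_upwards [ev_preimage (continuous_plus_right d.testBit) (isOpenMap_plus_right d.testBit)
      hboxes] with g hg hgB
    exact (hg hgB).2
  refine ⟨k, a, b, ?_⟩
  filter_upwards [hboxes, hpar] with g hg hgd hgB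
  obtain ⟨Tr, hTrd⟩ : ∃ Tr : ℕ → Set (ℕ → Bool), ∀ d z, z ∈ Tr d ↔
      (∀ i, (F (plus z g) i).toNat ∈ p1.run (chi (join (F z) (F g))) i) ∧
      ∀ i, (F (plus (plus z g) (plus g d.testBit)) i).toNat ∈
        p2.run (chi (join (F (plus z g)) (F (plus g d.testBit)))) i :=
    ⟨fun d => {z | _}, fun _ _ => Iff.rfl⟩
  have hTr' : ∀ d : ℕ, (∀ q < k, d.testBit q = false) →
      ∀ᶠ z in residual (ℕ → Bool), z ∈ cyl a k → z ∈ Tr d := by
    intro d hd
    have h2 := hgd d (mem_cyl_low hgB hd)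
    filter_upwards [(hg hgB).1,
      ev_preimage (continuous_plus_right g) (isOpenMap_plus_right g) h2] with z hz1 hz2 hzA
    exact (hTrd d z).2 ⟨hz1 hzA, hz2 fun q hq => by simp [plus, hzA q hq, hgB q hq]⟩
  have htrans : ∀ d : ℕ, Approx (F g) F (fun z => F (plus z d.testBit)) (Tr d) := by
    intro d
    have h1 := approx_run_param (red_refl (F g)) p1 F fun z => F (plus z g)
    have h2 := approx_run_param ((hiff _ _).1 (red_plus_num g d)) p2
      (fun z => F (plus z g)) fun z => F (plus (plus z g) (plus g d.testBit))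
    refine approx_congr (approx_subset (approx_comp h1 h2) fun z hz => (hTrd d z).1 hz)
      fun z _ => ?_
    show F (plus (plus z g) (plus g d.testBit)) = F (plus z d.testBit)
    rw [← plus_assoc, plus_plus]
  obtain ⟨e', he'⟩ : ∃ e' : ℕ → ℕ, ∀ d, e' d = pre (shift k d.testBit) m := ⟨_, fun _ => rfl⟩
  have e'_bit : ∀ d, d < 2 ^ m → (e' d).testBit = shift k d.testBit := fun d hd => funext fun q => by
    rw [he', testBit_pre]
    split
    · rfl
    · next h =>
      have z1 : ∀ r, m ≤ r → d.testBit r = false := fun r hr =>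
        Nat.testBit_lt_two_pow (hd.trans_le (Nat.pow_le_pow_right (by norm_num) hr))
      simp only [shift]
      split
      · exact (z1 q (by omega)).symm
      · exact (z1 (q + 1) (by omega)).symm
  have e'_low : ∀ d, (∀ q < k, d.testBit q = false) → ∀ q < k, (e' d).testBit q = false := by
    intro d hd q hq
    rw [he', testBit_pre]
    simp [shift, hq, hd q hq]
  -- good points
  obtain ⟨R, hR⟩ : ∃ R : Set (ℕ → Bool), ∀ z, z ∈ R ↔ z ∈ T ∧ (z ∈ cyl a k → ∀ d : ℕ,
      (∀ q < k, d.testBit q = false) → z ∈ Tr d ∧ (plus z d.testBit ∈ cyl s m →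
        (∀ i, (F (shift k (plus z d.testBit)) i).toNat ∈
          p0.run (chi (F (plus z d.testBit))) i) ∧ shift k (plus z d.testBit) ∈ Tr (e' d))) :=
    ⟨{z | _}, fun _ => Iff.rfl⟩
  have hRev : ∀ᶠ z in residual (ℕ → Bool), z ∈ R := by
    have : ∀ d : ℕ, ∀ᶠ z in residual (ℕ → Bool), z ∈ cyl a k →
        (∀ q < k, d.testBit q = false) → z ∈ Tr d ∧ (plus z d.testBit ∈ cyl s m →
          (∀ i, (F (shift k (plus z d.testBit)) i).toNat ∈
            p0.run (chi (F (plus z d.testBit))) i) ∧ shift k (plus z d.testBit) ∈ Tr (e' d)) := by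
      intro d
      by_cases hd : ∀ q < k, d.testBit q = false
      swap
      · exact Eventually.of_forall fun z _ h => absurd h hd
      have hP : ∀ᶠ z in residual (ℕ → Bool),
          shift k (plus z d.testBit) ∈ cyl a k → shift k (plus z d.testBit) ∈ Tr (e' d) :=
        ev_preimage ((continuous_shift k).comp (continuous_plus_right d.testBit))
          ((isOpenMap_shift k).comp (isOpenMap_plus_right d.testBit)) (hTr' (e' d) (e'_low d hd))
      filter_upwards [hTr' d hd,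
        ev_preimage (continuous_plus_right d.testBit) (isOpenMap_plus_right d.testBit) h0, hP]
        with z hz1 hz2 hz3 hzA _
      refine ⟨hz1 hzA, fun hzs => ⟨hz2 hzs, hz3 fun q hq => ?_⟩⟩
      simp [shift, hq, plus, hd q hq, hzA q hq]
    filter_upwards [hTr, eventually_countable_forall.2 this] with z hzT hz
    exact (hR z).2 ⟨hzT, fun hzA d => hz d hzA⟩
  have hcore : ∀ᶠ x in residual (ℕ → Bool), ∀ n, (shift k)^[n] x ∈ R := by
    refine eventually_countable_forall.2 fun n => ?_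
    induction n with
    | zero => exact hRev
    | succ n ih =>
      simp only [Function.iterate_succ_apply]
      exact ev_preimage (continuous_shift k) (isOpenMap_shift k) ih
  filter_upwards [hcore] with x hx hxA
  obtain ⟨Q, hQ⟩ : ∃ Q : Set (ℕ → Bool), ∀ z,
      z ∈ Q ↔ z ∈ cyl a k ∧ ∀ n, (shift k)^[n] z ∈ R := ⟨{z | _}, fun _ => Iff.rfl⟩
  have hQR : ∀ z ∈ Q, z ∈ cyl a k ∧ z ∈ T ∧ ∀ d : ℕ, (∀ q < k, d.testBit q = false) →
      z ∈ Tr d ∧ (plus z d.testBit ∈ cyl s m →
        (∀ i, (F (shift k (plus z d.testBit)) i).toNat ∈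
          p0.run (chi (F (plus z d.testBit))) i) ∧ shift k (plus z d.testBit) ∈ Tr (e' d)) := by
    intro z hz
    obtain ⟨hzA, hzR⟩ := (hQ z).1 hz
    obtain ⟨hzT, hzC⟩ := (hR z).1 (hzR 0)
    exact ⟨hzA, hzT, hzC hzA⟩
  -- both outputs are approximated once the tests are known
  have hcases : ∀ (out : (ℕ → Bool) → (ℕ → Bool)),
      (∀ z0 ∈ Q, Approx (F g) F out {z | z ∈ Q ∧ ∀ q < m, z q = z0 q}) →
      Approx (F g) F out Q := by
    intro out hout
    suffices H : ∀ n, ∀ c : ℕ → ℕ, Approx (F g) F out {z | z ∈ Q ∧ ∀ d < 2 ^ L, n ≤ d →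
        (∀ q < k, d.testBit q = false) → pre (F (plus z d.testBit)) N = c d} from
      approx_subset (H (2 ^ L) fun _ => 0) fun z hz => ⟨hz, fun d h1 h2 => absurd h2 (by omega)⟩
    intro n
    induction n with
    | zero =>
      intro c
      by_cases hne : ∃ z0, z0 ∈ Q ∧ ∀ d < 2 ^ L, 0 ≤ d →
          (∀ q < k, d.testBit q = false) → pre (F (plus z0 d.testBit)) N = c d
      · obtain ⟨z0, hz0, hc0⟩ := hne
        refine approx_subset (hout z0 hz0) fun z hz => ⟨hz.1, ?_⟩
        obtain ⟨hzA, hzT, -⟩ := hQR z hz.1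
        obtain ⟨hz0A, hz0T, -⟩ := hQR z0 hz0
        refine hT z hzT z0 hz0T hzA hz0A fun d hd hlow i hi => ?_
        have h := congrArg (fun t => Nat.testBit t i)
          ((hz.2 d hd (Nat.zero_le _) hlow).trans (hc0 d hd (Nat.zero_le _) hlow).symm)
        simpa [testBit_pre, hi] using h
      · exact approx_subset (approx_empty _ _ _) fun z hz => absurd ⟨z, hz⟩ hne
    | succ n ih =>
      intro c
      by_cases hlow : ∀ q < k, n.testBit q = false
      · refine approx_cases (M := N) (approx_subset (htrans n) fun z hz =>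
          ((hQR z hz.1).2.2 n hlow).1) fun v _ => ?_
        refine approx_subset (ih (Function.update c n v)) fun z hz => ⟨hz.1.1, fun d hd hnd hl => ?_⟩
        rcases Nat.eq_or_lt_of_le hnd with h | h
        · subst h
          rw [Function.update_self]
          exact hz.2
        · rw [Function.update_of_ne (Nat.ne_of_gt h)]
          exact hz.1.2 d hd h hl
      · refine approx_subset (ih c) fun z hz => ⟨hz.1, fun d hd hnd hl => ?_⟩
        rcases Nat.eq_or_lt_of_le hnd with h | h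
        · exact absurd (h ▸ hl) hlow
        · exact hz.2 d hd h hl
  have hstep : Approx (F g) F (fun z => F (shift k z)) Q := by
    refine hcases _ fun z0 hz0 => ?_
    obtain ⟨d, hd⟩ : ∃ d, d = pre (plus z0 s) m := ⟨_, rfl⟩
    have hdlt : d < 2 ^ m := hd ▸ pre_lt _ _
    have hdlow : ∀ q < k, d.testBit q = false := fun q hq => by
      rw [hd, testBit_pre]
      simp [plus, (hQR z0 hz0).1 q hq, hsA q hq]
    have hinto : ∀ z, (∀ q < m, z q = z0 q) → plus z d.testBit ∈ cyl s m := fun z hz q hq => by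
      simp only [plus, hd, testBit_pre, if_pos hq, hz q hq]
      cases z0 q <;> cases s q <;> rfl
    have h1 := htrans d
    have h2 := approx_run (F g) p0 (fun z => F (plus z d.testBit))
      fun z => F (shift k (plus z d.testBit))
    have h3 : Approx (F g) (fun z => F (shift k (plus z d.testBit)))
        (fun z => F (plus (shift k (plus z d.testBit)) (e' d).testBit))
        {z | shift k (plus z d.testBit) ∈ Tr (e' d)} := by
      obtain ⟨K, hKc, hK⟩ := htrans (e' d)
      exact ⟨K, hKc, fun z hz => hK _ hz⟩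
    refine approx_congr (approx_subset (approx_comp (approx_comp h1 h2) h3) fun z hz => ?_)
      fun z hz => ?_
    · obtain ⟨t1, t2⟩ := (hQR z hz.1).2.2 d hdlow
      exact ⟨⟨t1, (t2 (hinto z hz.2)).1⟩, (t2 (hinto z hz.2)).2⟩
    · rw [e'_bit d hdlt, ← shift_plus, plus_plus]
  have hbit : Approx (F g) F (fun z _ => z k) Q := by
    refine hcases _ fun z0 _ => approx_congr
      (approx_const (F g) F (c := fun _ => z0 k) (Computable.const (z0 k)) _) fun z hz => ?_
    funext i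
    exact (hz.2 k (by omega)).symm
  have hmap : ∀ z ∈ Q, shift k z ∈ Q := by
    intro z hz
    obtain ⟨hzA, hzR⟩ := (hQ z).1 hz
    refine (hQ _).2 ⟨fun q hq => by simp [shift, hq, hzA q hq], fun n => ?_⟩
    rw [← Function.iterate_succ_apply]
    exact hzR (n + 1)
  obtain ⟨z, hz⟩ : ∃ z : ℕ → Bool, ∀ n, z n = x (k + n) := ⟨_, fun _ => rfl⟩
  have hzred : Red z (join (F x) (F g)) :=
    red_of_approx_iterate hstep hmap hbit ((hQ x).2 ⟨hxA, hx⟩) fun n => by
      rw [hz, iterate_shift_at]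
  refine red_trans ?_ hzred
  refine red_of_table (ν := fun n => n + 1)
    (g := fun n c => if n < k then (pre a k).testBit n else c.testBit (n - k)) Computable.succ
    (Primrec.ite (Primrec.nat_lt.comp Primrec.fst (Primrec.const k))
      (primrec_testBit.comp (Primrec.const (pre a k)) Primrec.fst)
      (primrec_testBit.comp Primrec.snd
        (Primrec.nat_sub.comp Primrec.fst (Primrec.const k)))).to_comp.to₂ fun n => ?_
  split
  · next h => rw [testBit_pre, if_pos h, hxA n h]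
  · next h =>
    rw [testBit_pre, if_pos (by omega), hz, Nat.add_sub_cancel' (by omega)]

/-- The inverse moves no degree upwards. -/
theorem red_inverse_le (hD : D ∈ residual (ℕ → Bool)) (hF : ContinuousOn F D)
    (hiff : ∀ x y, Red x y ↔ Red (F x) (F y))
    (hG1 : ∀ y, Red (F (G y)) y) (hG2 : ∀ y, Red y (F (G y))) (x : ℕ → Bool) :
    Red (G x) x := by
  obtain ⟨k, a, b, hstage⟩ := exists_stage hD hF hiff hG1 hG2
  obtain ⟨d, hd⟩ : ∃ d, d = pre x k := ⟨_, rfl⟩
  obtain ⟨x0, hx0⟩ : ∃ x0, x0 = plus x d.testBit := ⟨_, rfl⟩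
  have low : ∀ q < k, x0 q = false := fun q hq => by
    simp [hx0, plus, hd, testBit_pre, hq]
  have r1 : Red x x0 := by
    have := red_plus_num x0 d
    rwa [hx0, plus_plus, ← hx0] at this
  have r2 : Red x0 x := hx0 ▸ red_plus_num x d
  have key : ∀ᶠ g in residual (ℕ → Bool), g ∈ cyl b k → Red (G x0) (join x0 g) := by
    filter_upwards [hstage] with g hg hgB
    refine red_of_residual (isOpen_cyl a k) ⟨a, fun q _ => rfl⟩ ?_
    filter_upwards [hg hgB,
      ev_preimage (continuous_plus_right x0) (isOpenMap_plus_right x0) (hg hgB)] with h h1 h2 hhA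
    have hA : plus h x0 ∈ cyl a k := mem_cyl_low hhA low
    obtain ⟨W, hW⟩ : ∃ W, W = join (join (F x0) (F g)) (F h) := ⟨_, rfl⟩
    have wx : Red (F x0) W := hW ▸ red_trans (red_join_left _ _) (red_join_left _ _)
    have wg : Red (F g) W := hW ▸ red_trans (red_join_right (F x0) _) (red_join_left _ _)
    have wh : Red (F h) W := hW ▸ red_join_right _ _
    have h3 : Red h W := red_trans (h1 hhA) (red_join wh wg)
    have h4 : Red (F (plus h x0)) W :=
      red_trans (red_image_plus hiff hG1 hG2 h x0) (red_join wh wx)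
    have h5 : Red (plus h x0) W := red_trans (h2 hA) (red_join h4 wg)
    have h6 := red_trans (red_plus (plus h x0) h) (red_join h5 h3)
    rw [plus_cancel, hW] at h6
    refine red_trans (red_mono_inv hiff hG1 hG2 h6) (red_trans (red_inv_join hiff hG1 hG2 _ _) ?_)
    refine red_join (red_trans (red_inv_join hiff hG1 hG2 _ _) ?_)
      (red_trans (red_inv_left hiff hG1 h) (red_join_right _ _))
    exact red_trans (red_join (red_trans (red_inv_left hiff hG1 x0) (red_join_left x0 g))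
      (red_trans (red_inv_left hiff hG1 g) (red_join_right x0 g))) (red_join_left _ _)
  refine red_trans (red_mono_inv hiff hG1 hG2 r1) (red_trans ?_ r2)
  exact red_of_residual (isOpen_cyl b k) ⟨b, fun q _ => rfl⟩ key

end Vale.Agent.P327.Deg
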