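import Mathlib
import Vale.Agent.P327.Representation

/-!
Borel maps representing an automorphism send every point to a Turing equivalent one.
-/

namespace Vale.Agent.P327.Deg

open Filter Topology Set

lemma continuousOn_residual {F : (ℕ → Bool) → (ℕ → Bool)} (hF : Measurable F) :
    ∃ D ∈ residual (ℕ → Bool), ContinuousOn F D := by
  haveI : BorelSpace (ℕ → Bool) := inferInstance
  have h : ∀ t : ℕ × Bool, ∃ U : Set (ℕ → Bool), IsOpen U ∧
      ∀ᶠ z in residual (ℕ → Bool), (F z t.1 = t.2 ↔ z ∈ U) := by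
    intro t
    have hm : MeasurableSet {z : ℕ → Bool | F z t.1 = t.2} :=
      ((measurable_pi_apply t.1).comp hF) (measurableSet_singleton t.2)
    obtain ⟨U, hU, he⟩ := hm.baireMeasurableSet.residualEq_isOpen
    refine ⟨U, hU, ?_⟩
    filter_upwards [he] with z hz
    exact Iff.of_eq hz
  choose U hU he using h
  obtain ⟨D, hDdef⟩ : ∃ D : Set (ℕ → Bool), D = {z | ∀ t : ℕ × Bool, (F z t.1 = t.2 ↔ z ∈ U t)} :=
    ⟨_, rfl⟩
  refine ⟨D, hDdef ▸ eventually_countable_forall.2 he, ?_⟩
  intro z hz
  refine tendsto_pi_nhds.2 fun i => ?_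
  have hz' : ∀ t : ℕ × Bool, (F z t.1 = t.2 ↔ z ∈ U t) := hDdef.subset hz
  rw [nhds_discrete, tendsto_pure]
  filter_upwards [mem_nhdsWithin_of_mem_nhds ((hU (i, F z i)).mem_nhds ((hz' (i, F z i)).1 rfl)),
    self_mem_nhdsWithin] with y hy hyD
  exact ((hDdef.subset hyD : ∀ t : ℕ × Bool, (F y t.1 = t.2 ↔ y ∈ U t)) (i, F z i)).2 hy

lemma measurableSet_red {u w : (ℕ → Bool) → (ℕ → Bool)} (hu : Measurable u) (hw : Measurable w) :
    MeasurableSet {y | Red (u y) (w y)} := by
  haveI : BorelSpace ((ℕ → Bool) × (ℕ → Bool)) := inferInstance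
  have e : {y | Red (u y) (w y)} = ⋃ p : Prog, ⋂ i : ℕ,
      (fun y => (u y, w y)) ⁻¹' {v | (v.1 i).toNat ∈ p.run (chi v.2) i} := by
    ext y
    simp only [Set.mem_iUnion, Set.mem_iInter, Set.mem_preimage]
    constructor
    · intro h
      obtain ⟨p, hp⟩ := exists_prog (RecursiveIn.iff_nat.1 h)
      exact ⟨p, fun i => by simp [hp, chi]⟩
    · rintro ⟨p, hp⟩
      obtain ⟨K, hKc, hK⟩ := exists_eval p
      obtain ⟨h1, h2⟩ := hK (w y) (u y) hp
      refine red_of_search (J := fun i N b =>
        cond (decide (i < (K (N, N, b)).1)) (some ((K (N, N, b)).2.testBit i)) none)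
        ?_ (fun i N b hb => ?_) fun i => ?_
      · have hr : Computable fun t : ℕ × ℕ × ℕ => K (t.2.1, t.2.1, t.2.2) :=
          hKc.comp ((Computable.fst.comp Computable.snd).pair
            ((Computable.fst.comp Computable.snd).pair (Computable.snd.comp Computable.snd)))
        have hlt : Computable fun v : ℕ × ℕ => decide (v.1 < v.2) :=
          (Primrec.nat_lt.comp (Primrec.fst : Primrec fun v : ℕ × ℕ => v.1)
            Primrec.snd).decide.to_comp
        have hp' : Computable fun t : ℕ × ℕ × ℕ => (t.1, (K (t.2.1, t.2.1, t.2.2)).1) :=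
          Computable.fst.pair (Computable.fst.comp hr)
        exact Computable.cond
          (Computable.comp (f := fun v : ℕ × ℕ => decide (v.1 < v.2))
            (g := fun t : ℕ × ℕ × ℕ => (t.1, (K (t.2.1, t.2.1, t.2.2)).1)) hlt hp')
          (Computable.option_some.comp (primrec_testBit.to_comp.comp (Computable.snd.comp hr)
            Computable.fst)) (Computable.const none)
      · by_cases hc : i < (K (N, N, pre (w y) N)).1
        · rw [decide_eq_true hc, cond_true, Option.some.injEq, h1 N N, testBit_pre,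
            if_pos hc] at hb
          exact hb.symm
        · simp [hc] at hb
      · obtain ⟨N, hN⟩ := h2 (i + 1)
        refine ⟨N, u y i, ?_⟩
        have := hN N le_rfl N le_rfl
        rw [decide_eq_true (by omega), cond_true, h1 N N, testBit_pre, if_pos (by omega)]
  rw [e]
  exact MeasurableSet.iUnion fun p => MeasurableSet.iInter fun i =>
    (hu.prodMk hw) (isOpen_good continuous_fst continuous_snd p i).measurableSet

/-- A Borel inverse, built from the programs below each point. -/
lemma exists_measurable_inverse {F G : (ℕ → Bool) → (ℕ → Bool)} (hF : Measurable F)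
    (hG1 : ∀ y, Red (F (G y)) y) (hG2 : ∀ y, Red y (F (G y))) (hle : ∀ y, Red (G y) y) :
    ∃ G' : (ℕ → Bool) → (ℕ → Bool), Measurable G' ∧
      (∀ y, Red (F (G' y)) y) ∧ ∀ y, Red y (F (G' y)) := by
  classical
  haveI : Nonempty Prog := ⟨.zero⟩
  obtain ⟨en, hen⟩ := exists_surjective_nat Prog
  obtain ⟨sel, hsel⟩ : ∃ sel : ℕ → (ℕ → Bool) → (ℕ → Bool), ∀ n y i,
      sel n y i = decide (1 ∈ (en n).run (chi y) i) := ⟨fun n y i => _, fun _ _ _ => rfl⟩
  have hselm : ∀ n, Measurable (sel n) := by
    intro n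
    refine measurable_pi_lambda _ fun i => measurable_to_countable' fun v => ?_
    have hopen := (isOpen_run (en n) i 1).measurableSet
    cases v
    · have e : (fun y => sel n y i) ⁻¹' {false}
          = {y : ℕ → Bool | 1 ∈ (en n).run (chi y) i}ᶜ := by
        ext y; simp [hsel]
      rw [e]
      exact hopen.compl
    · have e : (fun y => sel n y i) ⁻¹' {true} = {y : ℕ → Bool | 1 ∈ (en n).run (chi y) i} := by
        ext y; simp [hsel]
      rw [e]
      exact hopen
  have hex : ∀ y, ∃ n, Red (F (sel n y)) y ∧ Red y (F (sel n y)) := by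
    intro y
    obtain ⟨p, hp⟩ := exists_prog (RecursiveIn.iff_nat.1 (hle y))
    obtain ⟨n, hn⟩ := hen p
    have e : sel n y = G y := funext fun i => by
      rw [hsel, hn, hp]
      cases h : G y i <;> simp [chi, h]
    exact ⟨n, e ▸ hG1 y, e ▸ hG2 y⟩
  refine ⟨fun y => sel (Nat.find (hex y)) y, Measurable.find hselm (fun n => ?_) hex,
    fun y => (Nat.find_spec (hex y)).1, fun y => (Nat.find_spec (hex y)).2⟩
  exact (measurableSet_red (hF.comp (hselm n)) measurable_id).inter
    (measurableSet_red measurable_id (hF.comp (hselm n)))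

theorem borel_fixes_degrees {F : (ℕ → Bool) → (ℕ → Bool)} (hF : Measurable F)
    (hiff : ∀ x y, Red x y ↔ Red (F x) (F y))
    (hsurj : ∀ y, ∃ x, Red (F x) y ∧ Red y (F x)) (x : ℕ → Bool) :
    Red (F x) x ∧ Red x (F x) := by
  choose G hG1 hG2 using hsurj
  obtain ⟨D, hD, hDc⟩ := continuousOn_residual hF
  obtain ⟨G', hG'm, h1, h2⟩ := exists_measurable_inverse hF hG1 hG2
    (red_inverse_le hD hDc hiff hG1 hG2)
  have hG'le := red_inverse_le hD hDc hiff h1 h2
  have hiff' : ∀ u v, Red u v ↔ Red (G' u) (G' v) := fun u v =>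
    ⟨red_mono_inv hiff h1 h2, fun h =>
      red_trans (h2 u) (red_trans ((hiff _ _).1 h) (h1 v))⟩
  obtain ⟨D', hD', hDc'⟩ := continuousOn_residual hG'm
  refine ⟨red_inverse_le hD' hDc' hiff' (red_inv_left hiff h1) (red_inv_right hiff h2) x, ?_⟩
  exact red_trans (red_inv_right hiff h2 x) (hG'le (F x))

end Vale.Agent.P327.Deg
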