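import Mathlib
import Vale.Agent.P327.Borel

/-!
Rigidity follows once every automorphism agrees up to Turing equivalence with a Borel map on a
residual set.
-/

namespace Vale.Agent.P327.Deg

open Filter Topology Set

/-- `F` represents an automorphism: it preserves and reflects reducibility and meets every degree -/
def IsRep (F : (ℕ → Bool) → (ℕ → Bool)) : Prop :=
  (∀ x y, Red x y ↔ Red (F x) (F y)) ∧ ∀ y, ∃ x, Red (F x) y ∧ Red y (F x)

/-- `F` agrees up to equivalence with a Borel map on a residual set -/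
def GenericallyBorel (F : (ℕ → Bool) → (ℕ → Bool)) : Prop :=
  ∃ F' : (ℕ → Bool) → (ℕ → Bool), Measurable F' ∧
    ∀ᶠ x in residual (ℕ → Bool), Red (F' x) (F x) ∧ Red (F x) (F' x)

lemma inverse_le_of_generic {F G : (ℕ → Bool) → (ℕ → Bool)}
    (hiff : ∀ x y, Red x y ↔ Red (F x) (F y))
    (hG1 : ∀ y, Red (F (G y)) y) (hG2 : ∀ y, Red y (F (G y))) (hF : GenericallyBorel F)
    (x : ℕ → Bool) : Red (G x) x := by
  classical
  obtain ⟨F', hF'm, hev⟩ := hF
  obtain ⟨D, hD, hDc⟩ := continuousOn_residual hF'm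
  obtain ⟨R, hR⟩ : ∃ R : Set (ℕ → Bool),
      R = D ∩ {x | Red (F' x) (F x) ∧ Red (F x) (F' x)} := ⟨_, rfl⟩
  obtain ⟨F1, hF1⟩ : ∃ F1 : (ℕ → Bool) → (ℕ → Bool), ∀ z, F1 z = if z ∈ R then F' z else F z :=
    ⟨_, fun _ => rfl⟩
  have heq : ∀ z, Red (F1 z) (F z) ∧ Red (F z) (F1 z) := by
    intro z
    rw [hF1]
    by_cases hz : z ∈ R
    · rw [if_pos hz]; exact (hR.subset hz).2
    · rw [if_neg hz]; exact ⟨red_refl _, red_refl _⟩
  refine red_inverse_le (D := R) (F := F1) (hR ▸ inter_mem hD hev) ?_ (fun u v => ⟨fun h => ?_,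
    fun h => ?_⟩) (fun y => red_trans (heq _).1 (hG1 y)) (fun y => red_trans (hG2 y) (heq _).2) x
  · refine (hDc.mono (hR ▸ Set.inter_subset_left)).congr fun z hz => ?_
    rw [hF1, if_pos hz]
  · exact red_trans (heq u).1 (red_trans ((hiff _ _).1 h) (heq v).2)
  · exact (hiff _ _).2 (red_trans (heq u).2 (red_trans h (heq v).1))

/-- Rigidity from generic Borel representability of all automorphisms. -/
theorem rigid_of_genericallyBorel (hgen : ∀ F, IsRep F → GenericallyBorel F)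
    {F : (ℕ → Bool) → (ℕ → Bool)} (hF : IsRep F) (x : ℕ → Bool) :
    Red (F x) x ∧ Red x (F x) := by
  obtain ⟨hiff, hsurj⟩ := hF
  choose G hG1 hG2 using hsurj
  have hGle := inverse_le_of_generic hiff hG1 hG2 (hgen F ⟨hiff, fun y => ⟨G y, hG1 y, hG2 y⟩⟩)
  have hiff' : ∀ u v, Red u v ↔ Red (G u) (G v) := fun u v =>
    ⟨red_mono_inv hiff hG1 hG2, fun h =>
      red_trans (hG2 u) (red_trans ((hiff _ _).1 h) (hG1 v))⟩
  have hFle := inverse_le_of_generic (G := F) hiff' (red_inv_left hiff hG1)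
    (red_inv_right hiff hG2)
    (hgen G ⟨hiff', fun y => ⟨F y, red_inv_left hiff hG1 y, red_inv_right hiff hG2 y⟩⟩)
  exact ⟨hFle x, red_trans (red_inv_right hiff hG2 x) (hGle (F x))⟩

end Vale.Agent.P327.Deg
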