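import Mathlib
import Vale.Agent.P327.Rigidity

/-!
Common definitions for the representation half.
-/

namespace Vale.Agent.P327.Deg

/-- the join of countably many rows -/
def flat (P : ℕ → ℕ → Bool) : ℕ → Bool := fun m => P m.unpair.1 m.unpair.2

/-- the rows, translated row by row -/
def rowsPlus (P t : ℕ → ℕ → Bool) : ℕ → ℕ → Bool := fun n => plus (P n) (t n)

/-- `g` is a greatest lower bound of `x` and `y` -/
def IsGlb (g x y : ℕ → Bool) : Prop :=
  Red g x ∧ Red g y ∧ ∀ z, Red z x → Red z y → Red z g

end Vale.Agent.P327.Deg
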