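import Mathlib
import Vale.Agent.P327.Interface

/-!
On a residual set the image degree is given by one of countably many fixed Borel maps: a row
sequence with no row computable from the others is selected by the image, and the selection is
read off on the preimage side.
-/

namespace Vale.Agent.P327.Deg

open Filter Topology Set

/-- row `m` of a point -/
def rowOf (m : ℕ) (T : ℕ → Bool) : ℕ → Bool := fun i => T (Nat.pair m i)

/-- all rows but row `m` -/
def othersOf (m : ℕ) (T : ℕ → Bool) : ℕ → Bool :=
  fun j => if j.unpair.1 = m then false else T j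

/-- in each pair of rows, the one chosen by the corresponding bit of `R` -/
def selRows (T R : ℕ → Bool) : ℕ → Bool :=
  fun j => cond (R j.unpair.1) (T (Nat.pair (2 * j.unpair.1 + 1) j.unpair.2))
    (T (Nat.pair (2 * j.unpair.1) j.unpair.2))

/-- the point read off from a program with oracle `x` -/
noncomputable def progVal (p : Prog) (x : ℕ → Bool) : ℕ → Bool :=
  open Classical in fun i => decide (1 ∈ p.run (chi x) i)

lemma measurable_progVal (p : Prog) : Measurable (progVal p) := by
  classical
  refine measurable_pi_lambda _ fun i => measurable_to_bool ?_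
  have e : (fun x => progVal p x i) ⁻¹' {true} = {x : ℕ → Bool | 1 ∈ p.run (chi x) i} := by
    ext x; simp [progVal]
  rw [e]
  exact (isOpen_run p i 1).measurableSet

lemma exists_progVal {z x : ℕ → Bool} (h : Red z x) : ∃ p, progVal p x = z := by
  obtain ⟨p, hp⟩ := exists_prog (RecursiveIn.iff_nat.1 h)
  refine ⟨p, funext fun i => ?_⟩
  classical
  simp only [progVal, hp]
  cases hz : z i <;> simp [chi, hz]

/-- A point not computable from `a` stays so after adding a generic point. -/
lemma ev_not_red {z a : ℕ → Bool} (h : ¬ Red z a) :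
    ∀ᶠ w in residual (ℕ → Bool), ¬ Red z (join a w) := by
  have hj : Continuous fun w => join a w := continuous_join.comp (Continuous.prodMk_right a)
  have hm : MeasurableSet {w | Red z (join a w)} :=
    measurableSet_red measurable_const hj.measurable
  obtain ⟨U, hU, he⟩ := hm.baireMeasurableSet.residualEq_isOpen
  rcases U.eq_empty_or_nonempty with rfl | hne
  · filter_upwards [he] with w hw hred
    exact (Iff.of_eq hw).1 hred
  · refine absurd (red_of_residual hU hne ?_) h
    filter_upwards [he] with w hw hwU
    exact (Iff.of_eq hw).2 hwU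

lemma red_selRows (T R : ℕ → Bool) : Red (selRows T R) (join T R) :=
  red_of_table
    (ν := fun j => 2 * (Nat.pair (2 * j.unpair.1) j.unpair.2
      + Nat.pair (2 * j.unpair.1 + 1) j.unpair.2 + j.unpair.1) + 2)
    (g := fun j b => cond (b.testBit (2 * j.unpair.1 + 1))
      (b.testBit (2 * Nat.pair (2 * j.unpair.1 + 1) j.unpair.2))
      (b.testBit (2 * Nat.pair (2 * j.unpair.1) j.unpair.2)))
    (by
      have h1 : Primrec fun j : ℕ => 2 * j.unpair.1 :=
        Primrec.nat_mul.comp (Primrec.const 2) (Primrec.fst.comp Primrec.unpair)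
      have h2 : Primrec fun j : ℕ => j.unpair.2 := Primrec.snd.comp Primrec.unpair
      exact (Primrec.nat_add.comp (Primrec.nat_mul.comp (Primrec.const 2)
        (Primrec.nat_add.comp (Primrec.nat_add.comp (Primrec₂.natPair.comp h1 h2)
          (Primrec₂.natPair.comp (Primrec.nat_add.comp h1 (Primrec.const 1)) h2))
          (Primrec.fst.comp Primrec.unpair))) (Primrec.const 2)).to_comp)
    (by
      have h1 : Primrec fun t : ℕ × ℕ => 2 * t.1.unpair.1 :=
        Primrec.nat_mul.comp (Primrec.const 2)
          (Primrec.fst.comp (Primrec.unpair.comp Primrec.fst))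
      have h2 : Primrec fun t : ℕ × ℕ => t.1.unpair.2 :=
        Primrec.snd.comp (Primrec.unpair.comp Primrec.fst)
      exact (Primrec.cond
        (primrec_testBit.comp Primrec.snd (Primrec.nat_add.comp h1 (Primrec.const 1)))
        (primrec_testBit.comp Primrec.snd (Primrec.nat_mul.comp (Primrec.const 2)
          (Primrec₂.natPair.comp (Primrec.nat_add.comp h1 (Primrec.const 1)) h2)))
        (primrec_testBit.comp Primrec.snd (Primrec.nat_mul.comp (Primrec.const 2)
          (Primrec₂.natPair.comp h1 h2)))).to_comp.to₂)
    fun j => by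
      rw [testBit_pre, testBit_pre, testBit_pre, if_pos (by omega), if_pos (by omega),
        if_pos (by omega)]
      simp [selRows, join, Nat.add_mod, Nat.mul_mod_right,
        show (2 * j.unpair.1 + 1) / 2 = j.unpair.1 by omega]

lemma red_rowOf_selRows {T R : ℕ → Bool} {n : ℕ} (h : R n = true) :
    Red (rowOf (2 * n + 1) T) (selRows T R) :=
  red_of_table (ν := fun i => Nat.pair n i + 1) (g := fun i b => b.testBit (Nat.pair n i))
    ((Primrec.nat_add.comp (Primrec₂.natPair.comp (Primrec.const n) Primrec.id)
      (Primrec.const 1)).to_comp)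
    (primrec_testBit.comp Primrec.snd
      (Primrec₂.natPair.comp (Primrec.const n) Primrec.fst)).to_comp.to₂
    fun i => by
      rw [testBit_pre, if_pos (by omega)]
      simp [selRows, rowOf, h]

lemma selRows_othersOf {T R : ℕ → Bool} {n : ℕ} (h : R n = false) :
    selRows (othersOf (2 * n + 1) T) R = selRows T R := by
  funext j
  cases hR : R j.unpair.1 with
  | true =>
    have hne : ¬ j.unpair.1 = n := by
      intro he
      rw [he, h] at hR
      exact Bool.false_ne_true hR
    simp [selRows, hR, othersOf, hne]
  | false =>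
    simp [selRows, hR, othersOf]
    intro _
    omega

lemma continuous_othersOf (m : ℕ) : Continuous (othersOf m) := by
  refine continuous_pi fun j => ?_
  by_cases hj : j.unpair.1 = m
  · simpa [othersOf, hj] using continuous_const
  · simpa [othersOf, hj] using continuous_apply j

/-- Some point has no row computable from its other rows. -/
lemma exists_independent : ∃ T : ℕ → Bool, ∀ m, ¬ Red (rowOf m T) (othersOf m T) := by
  have hmp : ∀ t : ℕ × Prog, ∀ᶠ T in residual (ℕ → Bool),
      ¬ ∀ i, (rowOf t.1 T i).toNat ∈ t.2.run (chi (othersOf t.1 T)) i := by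
    rintro ⟨m, p⟩
    obtain ⟨S, hS⟩ : ∃ S : Set (ℕ → Bool), ∀ T, T ∈ S ↔
        ∀ i, (rowOf m T i).toNat ∈ p.run (chi (othersOf m T)) i := ⟨{T | _}, fun _ => Iff.rfl⟩
    have hd : Dense (closure S)ᶜ := by
      rw [← interior_eq_empty_iff_dense_compl, Set.eq_empty_iff_forall_notMem]
      intro z hz
      obtain ⟨T, hT, hTS⟩ := mem_closure_iff.1 (interior_subset hz) _ isOpen_interior hz
      obtain ⟨k, hk⟩ := exists_cyl isOpen_interior hT
      -- flip one bit of row `m` beyond the cylinder
      obtain ⟨T', hT'⟩ : ∃ T' : ℕ → Bool,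
          ∀ j, T' j = if j = Nat.pair m k then !T j else T j := ⟨_, fun _ => rfl⟩
      have hsame : othersOf m T' = othersOf m T := by
        funext j
        by_cases hj : j.unpair.1 = m
        · simp [othersOf, hj]
        · have : j ≠ Nat.pair m k := fun he => hj (by simp [he])
          simp [othersOf, hj, hT', this]
      obtain ⟨W, hW⟩ : ∃ W : Set (ℕ → Bool),
          W = {U | (!rowOf m U k).toNat ∈ p.run (chi (othersOf m U)) k} := ⟨_, rfl⟩
      have hWo : IsOpen W := by
        have hc : Continuous fun U : ℕ → Bool => fun _ : ℕ => !rowOf m U k :=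
          continuous_pi fun _ =>
            (continuous_of_discreteTopology (f := Bool.not)).comp (continuous_apply _)
        rw [hW]
        exact isOpen_good hc (continuous_othersOf m) p k
      have hT'W : T' ∈ W := by
        rw [hW]
        show (!rowOf m T' k).toNat ∈ p.run (chi (othersOf m T')) k
        rw [hsame, show (!rowOf m T' k) = rowOf m T k by simp [rowOf, hT']]
        exact (hS T).1 hTS k
      have hT'c : T' ∈ closure S := interior_subset (hk k le_rfl fun q hq => by
        have : k ≤ Nat.pair m k := Nat.right_le_pair m k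
        rw [hT', if_neg (by omega)])
      obtain ⟨U, hUW, hUS⟩ := mem_closure_iff.1 hT'c W hWo hT'W
      rw [hW] at hUW
      have := Part.mem_unique hUW ((hS U).1 hUS k)
      cases hb : rowOf m U k <;> simp [hb] at this
    filter_upwards [residual_of_dense_open isClosed_closure.isOpen_compl hd] with T hT hall
    exact hT (subset_closure ((hS T).2 hall))
  obtain ⟨T, -, hT⟩ :=
    exists_mem_of_ev isOpen_univ Set.univ_nonempty (eventually_countable_forall.2 hmp)
  refine ⟨T, fun m h => ?_⟩
  obtain ⟨p, hp⟩ := exists_prog (RecursiveIn.iff_nat.1 h)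
  exact hT (m, p) fun i => by simp [hp, chi]

/-- Countably many Borel maps give the image degree of residually every point. -/
theorem exists_countable_family {F : (ℕ → Bool) → (ℕ → Bool)} (h : IsRep F) :
    ∃ f : ℕ → (ℕ → Bool) → (ℕ → Bool), (∀ j, Measurable (f j)) ∧
      ∀ᶠ g in residual (ℕ → Bool), ∃ j, Red (f j g) (F g) ∧ Red (F g) (f j g) := by
  classical
  obtain ⟨hiff, hsurj⟩ := h
  choose G hG1 hG2 using hsurj
  obtain ⟨T, hT⟩ := exists_independent
  haveI : Nonempty Prog := ⟨.zero⟩
  obtain ⟨en, hen⟩ := exists_surjective_nat Prog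
  obtain ⟨f, hf⟩ : ∃ f : ℕ → (ℕ → Bool) → (ℕ → Bool), ∀ j g n, f j g n =
      decide (Red (G (rowOf (2 * n + 1) T)) (progVal (en j) (join (G T) g))) :=
    ⟨fun j g n => _, fun _ _ _ => rfl⟩
  refine ⟨f, fun j => measurable_pi_lambda _ fun n => measurable_to_bool ?_, ?_⟩
  · have e : (fun g => f j g n) ⁻¹' {true} =
        {g | Red (G (rowOf (2 * n + 1) T)) (progVal (en j) (join (G T) g))} := by
      ext g; simp [hf]
    rw [e]
    exact measurableSet_red measurable_const ((measurable_progVal _).comp
      (continuous_join.comp (Continuous.prodMk_right (G T))).measurable)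
  have hnot : ∀ m, ∀ᶠ g in residual (ℕ → Bool),
      ¬ Red (G (rowOf m T)) (join (G (othersOf m T)) g) := fun m => ev_not_red fun h' =>
    hT m (red_trans (hG2 _) (red_trans ((hiff _ _).1 h') (hG1 _)))
  filter_upwards [eventually_countable_forall.2 hnot] with g hg
  -- the selection by the image of `g` lies below a join of images
  have hbound : ∀ U, Red (selRows U (F g)) (F (join (G U) g)) := fun U =>
    red_trans (red_selRows U (F g))
      (red_join (red_trans (hG2 U) ((hiff _ _).1 (red_join_left _ _)))
        ((hiff _ _).1 (red_join_right _ _)))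
  obtain ⟨p, hp⟩ := exists_progVal (z := G (selRows T (F g))) (x := join (G T) g)
    ((hiff _ _).2 (red_trans (hG1 _) (hbound T)))
  obtain ⟨j, hj⟩ := hen p
  have hfg : f j g = F g := by
    funext n
    rw [hf, hj, hp]
    cases hn : F g n with
    | true =>
      rw [decide_eq_true_iff]
      exact red_mono_inv hiff hG1 hG2 (red_rowOf_selRows hn)
    | false =>
      rw [decide_eq_false_iff_not]
      intro hred
      apply hg (2 * n + 1)
      have h1 : Red (rowOf (2 * n + 1) T) (selRows T (F g)) :=
        red_trans (hG2 _) (red_trans ((hiff _ _).1 hred) (hG1 _))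
      rw [← selRows_othersOf hn] at h1
      exact (hiff _ _).2 (red_trans (hG1 _) (red_trans h1 (hbound _)))
  exact ⟨j, hfg ▸ red_refl _, hfg ▸ red_refl _⟩

end Vale.Agent.P327.Deg
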