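import Mathlib
import Vale.Agent.P327.Interface

/-!
From representing maps to automorphisms of the degrees of sets.
-/

namespace Vale.Agent.P327.Deg

/-- An automorphism of the degrees of sets is represented by a map on Cantor space. -/
theorem automorphism_eq_refl (hgen : ∀ F, IsRep F → GenericallyBorel F)
    (π : {d : TuringDegree // ∃ x : ℕ → Bool,
        d = toAntisymmetrization TuringReducible (fun n => Part.some (x n).toNat)} ≃o
      {d : TuringDegree // ∃ x : ℕ → Bool,
        d = toAntisymmetrization TuringReducible (fun n => Part.some (x n).toNat)}) :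
    π = OrderIso.refl _ := by
  obtain ⟨mk, hmk⟩ : ∃ mk : (ℕ → Bool) → {d : TuringDegree // ∃ x : ℕ → Bool,
      d = toAntisymmetrization TuringReducible (fun n => Part.some (x n).toNat)},
      ∀ x, (mk x).1 = toAntisymmetrization TuringReducible (chi x) :=
    ⟨fun x => ⟨_, x, rfl⟩, fun _ => rfl⟩
  have hle : ∀ x y, mk x ≤ mk y ↔ Red x y := by
    intro x y
    rw [← Subtype.coe_le_coe, hmk, hmk]
    exact Iff.rfl
  have hsur : ∀ d, ∃ x, mk x = d := by
    rintro ⟨d, x, rfl⟩
    exact ⟨x, Subtype.ext (hmk x)⟩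
  choose F hF using fun x => hsur (π (mk x))
  have hrep : IsRep F := by
    refine ⟨fun x y => ?_, fun y => ?_⟩
    · rw [← hle, ← hle, hF, hF, π.le_iff_le]
    · obtain ⟨x, hx⟩ := hsur (π.symm (mk y))
      refine ⟨x, (hle _ _).1 ?_, (hle _ _).1 ?_⟩ <;> rw [hF, hx, π.apply_symm_apply]
  refine DFunLike.ext _ _ fun d => ?_
  obtain ⟨x, rfl⟩ := hsur d
  obtain ⟨h1, h2⟩ := rigid_of_genericallyBorel hgen hrep x
  rw [OrderIso.refl_apply, ← hF]
  exact le_antisymm ((hle _ _).2 h1) ((hle _ _).2 h2)

end Vale.Agent.P327.Deg
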