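import Mathlib
import Vale.Agent.P327.Interface

/-!
Every row of a generic sequence is the greatest lower bound of two joins.
-/

namespace Vale.Agent.P327.Deg

open Filter Topology Set

namespace MinimalPair

lemma ev_sections {p : (ℕ → Bool) × (ℕ → Bool) → Prop}
    (h : ∀ᶠ z in residual ((ℕ → Bool) × (ℕ → Bool)), p z) :
    ∀ᶠ g in residual (ℕ → Bool), ∀ᶠ x in residual (ℕ → Bool), p (x, g) := by
  obtain ⟨S, ho, hd, hS, hsub⟩ := mem_residual_iff.1 h
  have := hS.to_subtype
  filter_upwards [eventually_countable_forall.2 fun t : S =>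
    ev_section (ho t.1 t.2) isOpen_univ
      (show (univ : Set (ℕ → Bool)) ×ˢ (univ : Set (ℕ → Bool)) ⊆ closure t.1 by
        rw [(hd t.1 t.2).closure_eq]; exact subset_univ _)] with g hg
  filter_upwards [eventually_countable_forall.2 fun t : S => hg t trivial] with x hx
  exact hsub fun t ht => hx ⟨t, ht⟩ trivial

/-- A Borel set with comeagre sections one way has a comeagre section the other way. -/
lemma exists_section {A : Set ((ℕ → Bool) × (ℕ → Bool))} (hA : MeasurableSet A)
    (h : ∀ x, ∀ᶠ s in residual (ℕ → Bool), (x, s) ∈ A) :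
    ∃ s, ∀ᶠ x in residual (ℕ → Bool), (x, s) ∈ A := by
  have : BorelSpace ((ℕ → Bool) × (ℕ → Bool)) := inferInstance
  obtain ⟨W, hW, he⟩ := hA.baireMeasurableSet.residualEq_isOpen
  have he' : ∀ᶠ z in residual ((ℕ → Bool) × (ℕ → Bool)), z ∈ A ↔ z ∈ W := by
    filter_upwards [he] with z hz using Iff.of_eq hz
  have hsw := ev_sections (ev_preimage continuous_swap
    (Homeomorph.prodComm (ℕ → Bool) (ℕ → Bool)).isOpenMap he')
  have hdense : Dense W := by
    rw [dense_iff_inter_open]
    intro O hO hne
    obtain ⟨⟨a, b⟩, hab⟩ := hne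
    obtain ⟨U, V, hU, hV, haU, hbV, hUV⟩ := isOpen_prod_iff.1 hO a b hab
    obtain ⟨x, hxU, hx⟩ := exists_mem_of_ev hU ⟨a, haU⟩ hsw
    obtain ⟨s, hsV, hs1, hs2⟩ := exists_mem_of_ev hV ⟨b, hbV⟩ (hx.and (h x))
    exact ⟨(x, s), hUV (Set.mk_mem_prod hxU hsV), hs1.1 hs2⟩
  have hall : ∀ᶠ z in residual ((ℕ → Bool) × (ℕ → Bool)), z ∈ A := by
    filter_upwards [he', residual_of_dense_open hW hdense] with z h1 h2 using h1.2 h2
  obtain ⟨s, -, hs⟩ := exists_mem_of_ev isOpen_univ univ_nonempty (ev_sections hall)
  exact ⟨s, hs⟩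

lemma measurableSet_red₂ {α : Type*} [MeasurableSpace α] {u w : α → (ℕ → Bool)}
    (hu : Measurable u) (hw : Measurable w) : MeasurableSet {y | Red (u y) (w y)} := by
  have : BorelSpace ((ℕ → Bool) × (ℕ → Bool)) := inferInstance
  have he : Measurable fun z : ℕ → Bool => fun q => z (2 * q) :=
    measurable_pi_lambda _ fun q => measurable_pi_apply _
  have ho : Measurable fun z : ℕ → Bool => fun q => z (2 * q + 1) :=
    measurable_pi_lambda _ fun q => measurable_pi_apply _
  have h := (continuous_join.measurable.comp (hu.prodMk hw)) (measurableSet_red he ho)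
  have e : ∀ x v : ℕ → Bool, (fun q => join x v (2 * q)) = x ∧
      (fun q => join x v (2 * q + 1)) = v := fun x v =>
    ⟨funext fun q => by simp [join], funext fun q => by
      simp [join, Nat.add_mod, show (2 * q + 1) / 2 = q by omega]⟩
  convert h using 1
  ext y
  simp [(e (u y) (w y)).1, (e (u y) (w y)).2]

lemma ev_minimal (a u : ℕ → Bool) :
    ∀ᶠ w in residual (ℕ → Bool), ∀ z, Red z u → Red z (join a w) → Red z a := by
  have : Countable {z : ℕ → Bool // Red z u} := (countable_below u).to_subtype
  have : BorelSpace (ℕ → Bool) := inferInstance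
  have h : ∀ z : {z : ℕ → Bool // Red z u}, ∀ᶠ w in residual (ℕ → Bool),
      Red z.1 (join a w) → Red z.1 a := by
    rintro ⟨z, hz⟩
    by_cases hza : Red z a
    · exact Eventually.of_forall fun w _ => hza
    have hc : Continuous fun w => join a w :=
      continuous_join.comp (Continuous.prodMk_right a)
    obtain ⟨U, hU, he⟩ := (measurableSet_red (u := fun _ => z) measurable_const
      hc.measurable).baireMeasurableSet.residualEq_isOpen
    rcases U.eq_empty_or_nonempty with hUe | hUne
    · filter_upwards [he] with w hw hr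
      exact absurd (hUe.subset ((Iff.of_eq hw).1 hr)) (notMem_empty w)
    · refine absurd (red_of_residual hU hUne ?_) hza
      filter_upwards [he] with w hw hwU using (Iff.of_eq hw).2 hwU
  filter_upwards [eventually_countable_forall.2 h] with w hw z hzu hzw
  exact hw ⟨z, hzu⟩ hzw

lemma red_row (x : ℕ → Bool) (n : ℕ) : Red (fun k => x (Nat.pair n k)) x :=
  red_of_table (ν := fun k => Nat.pair n k + 1) (g := fun k b => b.testBit (Nat.pair n k))
    (Primrec.succ.comp (Primrec₂.natPair.comp (Primrec.const n) Primrec.id)).to_comp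
    (primrec_testBit.comp Primrec.snd
      (Primrec₂.natPair.comp (Primrec.const n) Primrec.fst)).to_comp.to₂
    fun k => by rw [testBit_pre, if_pos (Nat.lt_succ_self _)]

/-- The second upper bound of row `n`. -/
def upper (n : ℕ) (x s : ℕ → Bool) : ℕ → Bool := join (plus x s) fun k => s (Nat.pair n k)

lemma continuous_row (n : ℕ) : Continuous fun x : ℕ → Bool => fun k => x (Nat.pair n k) :=
  continuous_pi fun k => continuous_apply _

lemma continuous_upper (n : ℕ) :
    Continuous fun z : (ℕ → Bool) × (ℕ → Bool) => upper n z.1 z.2 :=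
  continuous_join.comp (continuous_plus.prodMk ((continuous_row n).comp continuous_snd))

lemma red_upper (n : ℕ) (x s : ℕ → Bool) : Red (upper n x s)
    (join (fun k => x (Nat.pair n k))
      (plus s fun m => if m.unpair.1 = n then false else x m)) := by
  obtain ⟨w, hw⟩ : ∃ w, w = plus s fun m => if m.unpair.1 = n then false else x m := ⟨_, rfl⟩
  obtain ⟨a, ha⟩ : ∃ a : ℕ → Bool, a = fun k => x (Nat.pair n k) := ⟨_, rfl⟩
  rw [← hw, ← ha]
  refine red_join ?_ ?_
  · refine red_of_table (ν := fun m => 2 * m + 2) (g := fun m b => if m.unpair.1 = n then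
      decide (b.testBit (2 * m.unpair.2) ≠ b.testBit (2 * m + 1)) else b.testBit (2 * m + 1))
      (Primrec.to_comp (Primrec.nat_add.comp (Primrec.nat_mul.comp (Primrec.const 2) Primrec.id)
        (Primrec.const 2))) ?_ fun m => ?_
    · exact (Primrec.ite (Primrec.eq.comp (Primrec.fst.comp (Primrec.unpair.comp Primrec.fst))
          (Primrec.const n))
        (PrimrecPred.decide (Primrec.eq.comp
          (primrec_testBit.comp Primrec.snd (Primrec.nat_mul.comp (Primrec.const 2)
            (Primrec.snd.comp (Primrec.unpair.comp Primrec.fst))))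
          (primrec_testBit.comp Primrec.snd (Primrec.nat_add.comp
            (Primrec.nat_mul.comp (Primrec.const 2) Primrec.fst) (Primrec.const 1)))).not)
        (primrec_testBit.comp Primrec.snd (Primrec.nat_add.comp
          (Primrec.nat_mul.comp (Primrec.const 2) Primrec.fst) (Primrec.const 1)))).to_comp.to₂
    · have := Nat.unpair_right_le m
      rw [testBit_pre, testBit_pre, if_pos (show 2 * m.unpair.2 < 2 * m + 2 by omega),
        if_pos (show 2 * m + 1 < 2 * m + 2 by omega)]
      simp only [join, show 2 * m.unpair.2 % 2 = 0 by omega, show (2 * m + 1) % 2 = 1 by omega,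
        show 2 * m.unpair.2 / 2 = m.unpair.2 by omega, show (2 * m + 1) / 2 = m by omega,
        hw, ha, plus]
      split
      · next h =>
        rw [← h, Nat.pair_unpair]
        cases x m <;> cases s m <;> rfl
      · next h => cases x m <;> cases s m <;> rfl
  · have e : (fun k => s (Nat.pair n k)) = fun k => w (Nat.pair n k) := funext fun k => by
      simp [hw, plus]
    rw [e]
    exact red_trans (red_row w n) (red_join_right a w)

lemma exists_glb_point : ∃ s : ℕ → Bool, ∀ᶠ x in residual (ℕ → Bool),
    ∀ n, IsGlb (fun k => x (Nat.pair n k)) x (upper n x s) := by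
  classical
  have : BorelSpace ((ℕ → Bool) × (ℕ → Bool)) := inferInstance
  obtain ⟨sel, hsel⟩ : ∃ sel : Prog → (ℕ → Bool) → (ℕ → Bool), ∀ p y i,
      sel p y i = decide (1 ∈ p.run (chi y) i) := ⟨fun p y i => _, fun _ _ _ => rfl⟩
  have hselm : ∀ p, Measurable (sel p) := by
    intro p
    refine measurable_pi_lambda _ fun i => measurable_to_countable' fun v => ?_
    have hopen := (isOpen_run p i 1).measurableSet
    cases v
    · have e : (fun y => sel p y i) ⁻¹' {false} = {y : ℕ → Bool | 1 ∈ p.run (chi y) i}ᶜ := by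
        ext y; simp [hsel]
      rw [e]; exact hopen.compl
    · have e : (fun y => sel p y i) ⁻¹' {true} = {y : ℕ → Bool | 1 ∈ p.run (chi y) i} := by
        ext y; simp [hsel]
      rw [e]; exact hopen
  obtain ⟨A, hA⟩ : ∃ A : Set ((ℕ → Bool) × (ℕ → Bool)), A = {z | ∀ t : ℕ × Prog,
      Red (sel t.2 z.1) z.1 → Red (sel t.2 z.1) (upper t.1 z.1 z.2) →
        Red (sel t.2 z.1) (fun k => z.1 (Nat.pair t.1 k))} := ⟨_, rfl⟩
  have hAm : MeasurableSet A := by
    rw [hA, show {z : (ℕ → Bool) × (ℕ → Bool) | ∀ t : ℕ × Prog,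
      Red (sel t.2 z.1) z.1 → Red (sel t.2 z.1) (upper t.1 z.1 z.2) →
        Red (sel t.2 z.1) (fun k => z.1 (Nat.pair t.1 k))} =
      ⋂ t : ℕ × Prog, {z | Red (sel t.2 z.1) z.1}ᶜ ∪
        {z | Red (sel t.2 z.1) (upper t.1 z.1 z.2)}ᶜ ∪
        {z | Red (sel t.2 z.1) (fun k => z.1 (Nat.pair t.1 k))} from by
      ext z; simp [imp_iff_not_or, or_assoc]]
    refine MeasurableSet.iInter fun t => ?_
    have hm : Measurable fun z : (ℕ → Bool) × (ℕ → Bool) => sel t.2 z.1 :=
      (hselm t.2).comp measurable_fst
    have hrow : Measurable fun z : (ℕ → Bool) × (ℕ → Bool) => fun k => z.1 (Nat.pair t.1 k) :=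
      ((continuous_row t.1).comp continuous_fst).measurable
    exact ((measurableSet_red₂ hm measurable_fst).compl.union
      (measurableSet_red₂ hm (continuous_upper t.1).measurable).compl).union
      (measurableSet_red₂ hm hrow)
  obtain ⟨s, hs⟩ := exists_section hAm fun x => by
    have h : ∀ n, ∀ᶠ w in residual (ℕ → Bool), ∀ z, Red z x →
        Red z (join (fun k => x (Nat.pair n k))
          (plus w fun m => if m.unpair.1 = n then false else x m)) →
          Red z (fun k => x (Nat.pair n k)) := fun n =>
      ev_preimage (continuous_plus_right _) (isOpenMap_plus_right _)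
        (ev_minimal (fun k => x (Nat.pair n k)) x)
    filter_upwards [eventually_countable_forall.2 h] with w hw
    rw [hA]
    rintro ⟨n, p⟩ hp ht
    exact hw n _ hp (red_trans ht (red_upper n x w))
  refine ⟨s, ?_⟩
  filter_upwards [hs] with x hx n
  refine ⟨red_row x n, ?_, fun z hzx hzu => ?_⟩
  · have e : (fun k => x (Nat.pair n k)) =
        plus (fun k => plus x s (Nat.pair n k)) fun k => s (Nat.pair n k) := funext fun k => by
      simp [plus]
    rw [e]
    exact red_trans (red_plus _ _)
      (red_join (red_trans (red_row _ n) (red_join_left _ _)) (red_join_right _ _))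
  · obtain ⟨p, hp⟩ := exists_prog (RecursiveIn.iff_nat.1 hzx)
    have e : sel p x = z := funext fun i => by
      rw [hsel, hp]
      cases h : z i <;> simp [chi, h]
    rw [hA] at hx
    exact e ▸ hx (n, p) (e.symm ▸ hzx) (e.symm ▸ hzu)

end MinimalPair

/-- For some fixed translation, every row of a generic sequence is a greatest lower bound. -/
theorem exists_glb_rows : ∃ t : ℕ → ℕ → Bool, ∀ᶠ P in residual (ℕ → ℕ → Bool),
    ∀ n, IsGlb (P n) (flat P) (join (flat (rowsPlus P t)) (t n)) := by
  obtain ⟨s, hs⟩ := MinimalPair.exists_glb_point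
  have hc : Continuous flat := continuous_pi fun m =>
    (continuous_apply m.unpair.2).comp (continuous_apply m.unpair.1)
  have hc' : Continuous fun x : ℕ → Bool => fun n k => x (Nat.pair n k) :=
    continuous_pi fun n => MinimalPair.continuous_row n
  have hopen : IsOpenMap flat :=
    (Homeomorph.mk ⟨flat, fun x n k => x (Nat.pair n k),
      fun P => by funext n k; simp [flat], fun x => by funext m; simp [flat]⟩ hc hc').isOpenMap
  refine ⟨fun n k => s (Nat.pair n k), ?_⟩
  filter_upwards [ev_preimage hc hopen hs] with P hP n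
  have e1 : (fun k => flat P (Nat.pair n k)) = P n := funext fun k => by simp [flat]
  have e2 : MinimalPair.upper n (flat P) s =
      join (flat (rowsPlus P fun n k => s (Nat.pair n k))) fun k => s (Nat.pair n k) := by
    have : plus (flat P) s = flat (rowsPlus P fun n k => s (Nat.pair n k)) := funext fun m => by
      simp [flat, rowsPlus, plus]
    rw [MinimalPair.upper, this]
  have := hP n
  rw [e1, e2] at this
  exact this

end Vale.Agent.P327.Deg
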