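import Mathlib
import Vale.Agent.P327.Countable
import Vale.Agent.P327.MinimalPair

/-!
Fusion: a representation of an automorphism agrees up to equivalence with one of countably many
Borel functions on some cylinder, hence with a Borel function on a residual set.

Row `i` of a generic `P` is the greatest lower bound of two joins; its image is thus the greatest
lower bound of two values named by the pair `i`, which makes the choice of the Borel function for
row `i` a Borel condition on `P`. A point built row by row inside the open versions of these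
conditions, avoiding agreement in every row, contradicts this.
-/

namespace Vale.Agent.P327.Deg

open Filter Topology Set

lemma continuous_flat : Continuous flat :=
  continuous_pi fun q => (continuous_apply q.unpair.2).comp (continuous_apply q.unpair.1)

lemma continuous_unflat : Continuous fun (c : ℕ → Bool) (n q : ℕ) => c (Nat.pair n q) :=
  continuous_pi fun n => continuous_pi fun q => continuous_apply (Nat.pair n q)

lemma isOpenMap_flat : IsOpenMap flat :=
  (Homeomorph.mk ⟨flat, fun c n q => c (Nat.pair n q), fun P => by funext n q; simp [flat],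
    fun c => by funext m; simp [flat]⟩ continuous_flat continuous_unflat).isOpenMap

/-- points with the same rows below `i` and the same first `L` bits as `P` -/
def box (P : ℕ → ℕ → Bool) (i L : ℕ) : Set (ℕ → ℕ → Bool) :=
  {Q | (∀ n < i, Q n = P n) ∧ flat Q ∈ cyl (flat P) L}

lemma mem_box_self (P : ℕ → ℕ → Bool) (i L : ℕ) : P ∈ box P i L :=
  ⟨fun _ _ => rfl, fun _ _ => rfl⟩

lemma box_trans {P Q R : ℕ → ℕ → Bool} {i i' L L' : ℕ} (hi : i ≤ i') (hL : L ≤ L')
    (hQ : Q ∈ box P i L) (hR : R ∈ box Q i' L') : R ∈ box P i L :=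
  ⟨fun n hn => (hR.1 n (by omega)).trans (hQ.1 n hn),
    fun q hq => (hR.2 q (by omega)).trans (hQ.2 q hq)⟩

lemma exists_box_subset {O : Set (ℕ → ℕ → Bool)} (hO : IsOpen O) {Q : ℕ → ℕ → Bool} (hQ : Q ∈ O)
    (i : ℕ) : ∃ L, ∀ L', L ≤ L' → box Q i L' ⊆ O := by
  have e : (fun n q => flat Q (Nat.pair n q)) = Q := by funext n q; simp [flat]
  obtain ⟨L, hL⟩ := exists_cyl (hO.preimage continuous_unflat) (x := flat Q) (by
    rw [Set.mem_preimage, e]; exact hQ)
  refine ⟨L, fun L' hL' R hR => ?_⟩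
  have h : (fun n q => flat R (Nat.pair n q)) ∈ O := hL L' hL' hR.2
  have e' : (fun n q => flat R (Nat.pair n q)) = R := by funext n q; simp [flat]
  rwa [e'] at h

/-- every box with the rows of `P` below `i` meets every dense open set of the sequence -/
def Ok (D : ℕ → Set (ℕ → ℕ → Bool)) (i : ℕ) (P : ℕ → ℕ → Bool) : Prop :=
  ∀ k Q, (∀ n < i, Q n = P n) → ∀ L, ∃ R ∈ box Q i L, R ∈ D k

lemma ok_congr {D : ℕ → Set (ℕ → ℕ → Bool)} {i : ℕ} {P P' : ℕ → ℕ → Bool} (h : Ok D i P)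
    (e : ∀ n < i, P' n = P n) : Ok D i P' :=
  fun k Q hQ => h k Q fun n hn => (hQ n hn).trans (e n hn)

lemma ok_zero {D : ℕ → Set (ℕ → ℕ → Bool)} (hd : ∀ k, Dense (D k)) (P : ℕ → ℕ → Bool) :
    Ok D 0 P := by
  intro k Q _ L
  obtain ⟨R, hR, hRD⟩ := (hd k).inter_open_nonempty (flat ⁻¹' cyl (flat Q) L)
    ((isOpen_cyl _ _).preimage continuous_flat) ⟨Q, fun _ _ => rfl⟩
  exact ⟨R, ⟨fun n hn => absurd hn (Nat.not_lt_zero n), hR⟩, hRD⟩

lemma ev_ok_succ {D : ℕ → Set (ℕ → ℕ → Bool)} (hD : ∀ k, IsOpen (D k)) {i : ℕ}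
    {P : ℕ → ℕ → Bool} (hP : Ok D i P) :
    ∀ᶠ g in residual (ℕ → Bool), Ok D (i + 1) (Function.update P i g) := by
  classical
  -- one finite pattern
  have h : ∀ v : ℕ × ℕ × ℕ, ∀ᶠ g in residual (ℕ → Bool),
      (∀ q, Nat.pair i q < v.2.1 → g q = v.2.2.testBit (Nat.pair i q)) →
      (∀ n < i, ∀ q, Nat.pair n q < v.2.1 → P n q = v.2.2.testBit (Nat.pair n q)) →
      ∃ R, (∀ n < i, R n = P n) ∧ R i = g ∧ flat R ∈ cyl v.2.2.testBit v.2.1 ∧ R ∈ D v.1 := by
    rintro ⟨k, L, c⟩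
    by_cases hPc : ∀ n < i, ∀ q, Nat.pair n q < L → P n q = c.testBit (Nat.pair n q)
    swap
    · exact Eventually.of_forall fun g _ h => absurd h hPc
    obtain ⟨W, hW⟩ : ∃ W : Set (ℕ → Bool), ∀ g, g ∈ W ↔
        ∃ R, (∀ n < i, R n = P n) ∧ R i = g ∧ flat R ∈ cyl c.testBit L ∧ R ∈ D k :=
      ⟨{g | ∃ R, (∀ n < i, R n = P n) ∧ R i = g ∧ flat R ∈ cyl c.testBit L ∧ R ∈ D k},
        fun _ => Iff.rfl⟩
    have hWo : IsOpen W := by
      rw [isOpen_iff_forall_mem_open]
      intro g hg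
      obtain ⟨R, hR1, hR2, hR3, hR4⟩ := (hW g).1 hg
      obtain ⟨L1, hL1⟩ := exists_box_subset (hD k) hR4 i
      refine ⟨cyl g (max L1 L), fun g' hg' => ?_, isOpen_cyl _ _, fun q _ => rfl⟩
      have hbox : Function.update R i g' ∈ box R i (max L1 L) := by
        refine ⟨fun n hn => Function.update_of_ne (Nat.ne_of_lt hn) _ _, fun m hm => ?_⟩
        simp only [flat]
        by_cases he : m.unpair.1 = i
        · rw [he, Function.update_self, hR2]
          exact hg' _ (lt_of_le_of_lt (Nat.unpair_right_le m) hm)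
        · rw [Function.update_of_ne he]
      exact (hW g').2 ⟨Function.update R i g', fun n hn => (hbox.1 n hn).trans (hR1 n hn),
        Function.update_self _ _ _, fun m hm => (hbox.2 m (by omega)).trans (hR3 m hm),
        hL1 _ (le_max_left _ _) hbox⟩
    have hsub : {g : ℕ → Bool | ∀ q, Nat.pair i q < L → g q = c.testBit (Nat.pair i q)} ⊆
        closure W := by
      intro g hg
      rw [mem_closure_iff]
      intro U hU hgU
      obtain ⟨l, hl⟩ := exists_cyl hU hgU
      obtain ⟨Q, hQ⟩ : ∃ Q : ℕ → ℕ → Bool, ∀ n q, Q n q =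
          if n < i then P n q else if n = i then g q else c.testBit (Nat.pair n q) :=
        ⟨_, fun _ _ => rfl⟩
      have hQP : ∀ n < i, Q n = P n := fun n hn => funext fun q => by rw [hQ, if_pos hn]
      obtain ⟨L', hL', hlL⟩ : ∃ L', L ≤ L' ∧ ∀ q < l, Nat.pair i q < L' := by
        refine ⟨L + Nat.pair i l + 1, by omega, fun q hq => ?_⟩
        have := Nat.pair_lt_pair_right i hq
        omega
      obtain ⟨R, hR, hRD⟩ := hP k Q hQP L'
      refine ⟨R i, hl l le_rfl fun q hq => ?_, (hW _).2 ⟨R,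
        fun n hn => (hR.1 n hn).trans (hQP n hn), rfl, fun m hm => ?_, hRD⟩⟩
      · have := hR.2 (Nat.pair i q) (hlL q hq)
        simp [flat, hQ] at this
        exact this
      · rw [hR.2 m (by omega)]
        obtain ⟨n, q, rfl⟩ : ∃ n q, m = Nat.pair n q := ⟨_, _, (Nat.pair_unpair m).symm⟩
        simp only [flat, Nat.unpair_pair, hQ]
        split
        · next hn => exact hPc n hn q hm
        · split
          · next hn' => subst hn'; exact hg q hm
          · rfl
    filter_upwards [ev_of_open hWo hsub] with g hg h1 _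
    exact (hW g).1 (hg h1)
  filter_upwards [eventually_countable_forall.2 h] with g hg
  intro k Q hQ L
  have hc : ∀ n q, Nat.pair n q < L → (pre (flat Q) L).testBit (Nat.pair n q) = Q n q :=
    fun n q hq => by rw [testBit_pre, if_pos hq]; simp [flat]
  obtain ⟨R, hR1, hR2, hR3, hR4⟩ := hg (k, L, pre (flat Q) L)
    (fun q hq => by rw [hc i q hq, hQ i (Nat.lt_succ_self i), Function.update_self])
    (fun n hn q hq => by
      rw [hc n q hq, hQ n (by omega), Function.update_of_ne (Nat.ne_of_lt hn)])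
  refine ⟨R, ⟨fun n hn => ?_, fun m hm => ?_⟩, hR4⟩
  · rw [hQ n hn]
    rcases Nat.lt_succ_iff_lt_or_eq.1 hn with h' | h'
    · rw [hR1 n h', Function.update_of_ne (Nat.ne_of_lt h')]
    · rw [h', hR2, Function.update_self]
  · rw [hR3 m hm, testBit_pre, if_pos hm]

/-- one step of the fusion: row `i` avoids agreement for the chosen index -/
lemma fusion_step {D : ℕ → Set (ℕ → ℕ → Bool)} (hD : ∀ k, IsOpen (D k))
    {O : ℕ → ℕ → Set (ℕ → ℕ → Bool)} (hO : ∀ i j, IsOpen (O i j)) {E : ℕ → Set (ℕ → Bool)}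
    (hE : ∀ j a l, ¬ ∀ᶠ g in residual (ℕ → Bool), g ∈ cyl a l → g ∈ E j)
    {i L : ℕ} {P : ℕ → ℕ → Bool} (hP : Ok D i P) :
    ∃ P' L', Ok D (i + 1) P' ∧ L ≤ L' ∧ P' ∈ box P i L ∧ box P' (i + 1) L' ⊆ D i ∧
      ∀ R ∈ box P' (i + 1) L',
        (∃ j, R ∈ O i j) → ∃ j, R ∈ O i j ∧ R i ∉ E j := by
  classical
  -- choose an index, and a box inside its open set if possible
  obtain ⟨j, Q, L1, hL1, hQ, hsel⟩ : ∃ j Q L1, L ≤ L1 ∧ Q ∈ box P i L ∧
      ∀ R ∈ box Q i L1, (∃ j, R ∈ O i j) → R ∈ O i j := by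
    by_cases h : ∃ j, ∃ Q ∈ box P i L, Q ∈ O i j
    · obtain ⟨j, Q, hQ, hQO⟩ := h
      obtain ⟨L0, hL0⟩ := exists_box_subset (hO i j) hQO i
      exact ⟨j, Q, max L L0, le_max_left _ _, hQ,
        fun R hR _ => hL0 _ (le_max_right _ _) hR⟩
    · exact ⟨0, P, L, le_rfl, mem_box_self _ _ _,
        fun R hR hRO => absurd ⟨hRO.choose, R, hR, hRO.choose_spec⟩ h⟩
  have hQok : Ok D i Q := ok_congr hP hQ.1
  obtain ⟨g, hg, hgok, hgE⟩ : ∃ g, g ∈ cyl (Q i) L1 ∧
      Ok D (i + 1) (Function.update Q i g) ∧ g ∉ E j := by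
    by_contra hcon
    push Not at hcon
    refine hE j (Q i) L1 ?_
    filter_upwards [ev_ok_succ hD hQok] with g hg hgc using hcon g hgc hg
  have hQ1 : Function.update Q i g ∈ box Q i L1 := by
    refine ⟨fun n hn => Function.update_of_ne (Nat.ne_of_lt hn) _ _, fun m hm => ?_⟩
    simp only [flat]
    by_cases he : m.unpair.1 = i
    · rw [he, Function.update_self]
      exact hg _ (lt_of_le_of_lt (Nat.unpair_right_le m) hm)
    · rw [Function.update_of_ne he]
  obtain ⟨P', hP', hP'D⟩ := hgok i _ (fun _ _ => rfl) L1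
  obtain ⟨L2, hL2⟩ := exists_box_subset (hD i) hP'D (i + 1)
  refine ⟨P', max L1 L2, ok_congr hgok hP'.1, by omega,
    box_trans le_rfl hL1 hQ (box_trans (Nat.le_succ i) le_rfl hQ1 hP'),
    hL2 _ (le_max_right _ _), fun R hR hRO => ⟨j, hsel R ?_ hRO, ?_⟩⟩
  · exact box_trans (Nat.le_succ i) le_rfl hQ1 (box_trans le_rfl (le_max_left _ _) hP' hR)
  · rw [hR.1 i (Nat.lt_succ_self i), hP'.1 i (Nat.lt_succ_self i), Function.update_self]
    exact hgE

lemma exists_fusion {D : ℕ → Set (ℕ → ℕ → Bool)} (hD : ∀ k, IsOpen (D k))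
    (hd : ∀ k, Dense (D k)) {O : ℕ → ℕ → Set (ℕ → ℕ → Bool)} (hO : ∀ i j, IsOpen (O i j))
    {E : ℕ → Set (ℕ → Bool)}
    (hE : ∀ j a l, ¬ ∀ᶠ g in residual (ℕ → Bool), g ∈ cyl a l → g ∈ E j) :
    ∃ P, (∀ k, P ∈ D k) ∧ ∀ i, (∃ j, P ∈ O i j) → ∃ j, P ∈ O i j ∧ P i ∉ E j := by
  classical
  choose nP nL hok hle hmem hsub hbad using fun (i L : ℕ) (P : ℕ → ℕ → Bool) (hP : Ok D i P) =>
    fusion_step hD hO hE (L := L) hP
  let S : ∀ i, {s : (ℕ → ℕ → Bool) × ℕ // Ok D i s.1} := fun i =>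
    Nat.rec (motive := fun i => {s : (ℕ → ℕ → Bool) × ℕ // Ok D i s.1})
      ⟨(fun _ _ => false, 0), ok_zero hd _⟩
      (fun i s => ⟨(nP i s.1.2 s.1.1 s.2, nL i s.1.2 s.1.1 s.2), hok i s.1.2 s.1.1 s.2⟩) i
  have hnest : ∀ i m, i ≤ m →
      (S i).1.2 ≤ (S m).1.2 ∧ (S m).1.1 ∈ box (S i).1.1 i (S i).1.2 := by
    intro i m h
    induction m, h using Nat.le_induction with
    | base => exact ⟨le_rfl, mem_box_self _ _ _⟩
    | succ m hm ih =>
      exact ⟨ih.1.trans (hle m _ _ (S m).2),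
        box_trans hm ih.1 ih.2 (hmem m (S m).1.2 (S m).1.1 (S m).2)⟩
  obtain ⟨P, hP⟩ : ∃ P : ℕ → ℕ → Bool, ∀ n, P n = (S (n + 1)).1.1 n := ⟨_, fun _ => rfl⟩
  have hmemS : ∀ i, P ∈ box (S i).1.1 i (S i).1.2 := by
    intro i
    have low : ∀ n < i, P n = (S i).1.1 n := fun n hn => by
      rw [hP]
      exact ((hnest (n + 1) i hn).2.1 n (Nat.lt_succ_self n)).symm
    refine ⟨low, fun m hm => ?_⟩
    by_cases hn : m.unpair.1 < i
    · simp only [flat, low _ hn]
    · simp only [flat, hP]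
      exact (hnest i (m.unpair.1 + 1) (by omega)).2.2 m hm
  exact ⟨P, fun k => hsub k _ _ (S k).2 (hmemS (k + 1)),
    fun i hi => hbad i _ _ (S i).2 P (hmemS (i + 1)) hi⟩

/-! ### Greatest lower bounds -/

lemma isGlb_unique {g g' x y : ℕ → Bool} (h : IsGlb g x y) (h' : IsGlb g' x y) :
    Red g g' ∧ Red g' g :=
  ⟨h'.2.2 g h.1 h.2.1, h.2.2 g' h'.1 h'.2.1⟩

lemma isGlb_congr {g g' x x' y y' : ℕ → Bool} (h : IsGlb g x y)
    (hg : Red g g' ∧ Red g' g) (hx : Red x x' ∧ Red x' x) (hy : Red y y' ∧ Red y' y) :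
    IsGlb g' x' y' :=
  ⟨red_trans hg.2 (red_trans h.1 hx.1), red_trans hg.2 (red_trans h.2.1 hy.1),
    fun z hzx hzy => red_trans (h.2.2 z (red_trans hzx hx.2) (red_trans hzy hy.2)) hg.1⟩

lemma isGlb_image {F : (ℕ → Bool) → (ℕ → Bool)} (hF : IsRep F) {g x y : ℕ → Bool}
    (h : IsGlb g x y) : IsGlb (F g) (F x) (F y) := by
  obtain ⟨hiff, hsurj⟩ := hF
  refine ⟨(hiff _ _).1 h.1, (hiff _ _).1 h.2.1, fun z hzx hzy => ?_⟩
  obtain ⟨u, hu1, hu2⟩ := hsurj z
  exact red_trans hu2 ((hiff _ _).1 (h.2.2 u ((hiff _ _).2 (red_trans hu1 hzx))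
    ((hiff _ _).2 (red_trans hu1 hzy))))

lemma red_image_join {F : (ℕ → Bool) → (ℕ → Bool)} (hF : IsRep F) (u v : ℕ → Bool) :
    Red (F (join u v)) (join (F u) (F v)) ∧ Red (join (F u) (F v)) (F (join u v)) := by
  obtain ⟨hiff, hsurj⟩ := hF
  refine ⟨?_, red_join ((hiff _ _).1 (red_join_left _ _)) ((hiff _ _).1 (red_join_right _ _))⟩
  obtain ⟨w, hw1, hw2⟩ := hsurj (join (F u) (F v))
  refine red_trans ((hiff _ _).1 (red_join ?_ ?_)) hw1
  · exact (hiff _ _).2 (red_trans (red_join_left _ _) hw2)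
  · exact (hiff _ _).2 (red_trans (red_join_right _ _) hw2)

lemma measurableSet_isGlb {α : Type*} [MeasurableSpace α] {u v w : α → (ℕ → Bool)}
    (hu : Measurable u) (hv : Measurable v) (hw : Measurable w) :
    MeasurableSet {a | IsGlb (u a) (v a) (w a)} := by
  have : Countable Prog := inferInstance
  have hR : ∀ {p q : α → (ℕ → Bool)}, Measurable p → Measurable q →
      MeasurableSet {a | Red (p a) (q a)} := fun hp hq => MinimalPair.measurableSet_red₂ hp hq
  have e : {a | IsGlb (u a) (v a) (w a)} = {a | Red (u a) (v a)} ∩ {a | Red (u a) (w a)} ∩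
      ⋂ n : Prog, ({a | Red (progVal n (v a)) (v a)}ᶜ ∪ {a | Red (progVal n (v a)) (w a)}ᶜ ∪
        {a | Red (progVal n (v a)) (u a)}) := by
    ext a
    simp only [Set.mem_inter_iff, Set.mem_iInter, Set.mem_union, Set.mem_compl_iff,
      Set.mem_ofPred_eq]
    constructor
    · rintro ⟨h1, h2, h3⟩
      refine ⟨⟨h1, h2⟩, fun n => ?_⟩
      by_cases hc : Red (progVal n (v a)) (v a) ∧ Red (progVal n (v a)) (w a)
      · exact Or.inr (h3 _ hc.1 hc.2)
      · exact Or.inl (not_and_or.1 hc)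
    · rintro ⟨⟨h1, h2⟩, h3⟩
      refine ⟨h1, h2, fun z hzv hzw => ?_⟩
      obtain ⟨n, hn⟩ := exists_progVal hzv
      rcases h3 n with (hc | hc) | hc
      · exact absurd (hn ▸ hzv) hc
      · exact absurd (hn ▸ hzw) hc
      · exact hn ▸ hc
  rw [e]
  exact ((hR hu hv).inter (hR hu hw)).inter (MeasurableSet.iInter fun n =>
    ((hR ((measurable_progVal n).comp hv) hv).compl.union (hR ((measurable_progVal n).comp hv)
      hw).compl).union
      (hR ((measurable_progVal n).comp hv) hu))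

/-- Every automorphism agrees up to equivalence with a Borel map on a residual set, given rows
that are greatest lower bounds. -/
theorem genericallyBorel_of_glb_rows
    (hglb : ∃ t : ℕ → ℕ → Bool, ∀ᶠ P in residual (ℕ → ℕ → Bool), ∀ n,
      IsGlb (P n) (flat P) (join (flat (rowsPlus P t)) (t n)))
    {F : (ℕ → Bool) → (ℕ → Bool)} (hF : IsRep F) : GenericallyBorel F := by
  classical
  have : BorelSpace (ℕ → ℕ → Bool) := inferInstance
  obtain ⟨t, ht⟩ := hglb
  obtain ⟨f, hfm, hf⟩ := exists_countable_family hF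
  obtain ⟨E, hEdef⟩ : ∃ E : ℕ → Set (ℕ → Bool), ∀ j g,
      g ∈ E j ↔ Red (f j g) (F g) ∧ Red (F g) (f j g) :=
    ⟨fun j => {g | Red (f j g) (F g) ∧ Red (F g) (f j g)}, fun _ _ => Iff.rfl⟩
  -- agreement on one cylinder suffices
  suffices H : ∃ j a k, ∀ᶠ g in residual (ℕ → Bool), g ∈ cyl a k → g ∈ E j by
    obtain ⟨j, a, k, hjak⟩ := H
    refine ⟨fun x => f j fun q => if q < k then a q else x q,
      (hfm j).comp (Continuous.measurable (continuous_pi fun q => ?_)), ?_⟩
    · split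
      · exact continuous_const
      · exact continuous_apply q
    have hall : ∀ᶠ x in residual (ℕ → Bool), ∀ d : ℕ,
        plus x d.testBit ∈ cyl a k → plus x d.testBit ∈ E j :=
      eventually_countable_forall.2 fun d =>
        ev_preimage (continuous_plus_right d.testBit) (isOpenMap_plus_right d.testBit) hjak
    filter_upwards [hall] with x hx
    obtain ⟨d, hd⟩ : ∃ d, d = pre (plus x a) k := ⟨_, rfl⟩
    have e : plus x d.testBit = fun q => if q < k then a q else x q := by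
      funext q
      simp only [plus, hd, testBit_pre]
      split
      · cases x q <;> cases a q <;> rfl
      · simp
    have hmem : plus x d.testBit ∈ cyl a k := fun q hq => by rw [e]; exact if_pos hq
    obtain ⟨h1, h2⟩ := (hEdef _ _).1 (hx d hmem)
    obtain ⟨hiff, -⟩ := hF
    have r1 : Red x (plus x d.testBit) := by
      have := red_plus_num (plus x d.testBit) d
      rwa [plus_plus] at this
    rw [← e]
    exact ⟨red_trans h1 ((hiff _ _).1 (red_plus_num x d)),
      red_trans ((hiff _ _).1 r1) h2⟩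
  by_contra hcon
  have hE : ∀ j a l, ¬ ∀ᶠ g in residual (ℕ → Bool), g ∈ cyl a l → g ∈ E j := fun j a l h =>
    hcon ⟨j, a, l, h⟩
  -- the Borel conditions and their open versions
  obtain ⟨B, hB⟩ : ∃ B : ℕ → ℕ → Set (ℕ → ℕ → Bool), ∀ i j P, P ∈ B i j ↔
      IsGlb (f j (P i)) (f i.unpair.1 (flat P))
        (join (f i.unpair.2 (flat (rowsPlus P t))) (F (t i))) :=
    ⟨fun i j => {P | IsGlb (f j (P i)) (f i.unpair.1 (flat P))
      (join (f i.unpair.2 (flat (rowsPlus P t))) (F (t i)))}, fun _ _ _ => Iff.rfl⟩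
  have hqc : Continuous fun P => flat (rowsPlus P t) :=
    (continuous_plus_right (flat t)).comp continuous_flat
  have hqo : IsOpenMap fun P => flat (rowsPlus P t) :=
    (isOpenMap_plus_right (flat t)).comp isOpenMap_flat
  have hBm : ∀ i j, MeasurableSet (B i j) := fun i j => by
    have e : B i j = {P | IsGlb (f j (P i)) (f i.unpair.1 (flat P))
        (join (f i.unpair.2 (flat (rowsPlus P t))) (F (t i)))} := Set.ext (hB i j)
    rw [e]
    exact measurableSet_isGlb ((hfm j).comp (measurable_pi_apply i))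
      ((hfm _).comp continuous_flat.measurable)
      ((continuous_join.comp (Continuous.prodMk_left (F (t i)))).measurable.comp
        ((hfm _).comp hqc.measurable))
  have hBO : ∀ v : ℕ × ℕ, ∃ O : Set (ℕ → ℕ → Bool), IsOpen O ∧
      ∀ᶠ P in residual (ℕ → ℕ → Bool), (P ∈ B v.1 v.2 ↔ P ∈ O) := by
    intro v
    obtain ⟨O, hO, he⟩ := (hBm v.1 v.2).baireMeasurableSet.residualEq_isOpen
    refine ⟨O, hO, ?_⟩
    filter_upwards [he] with P hP
    exact Iff.of_eq hP
  choose O hO hBOe using hBO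
  have hgood : ∀ᶠ P in residual (ℕ → ℕ → Bool),
      (∀ n, IsGlb (P n) (flat P) (join (flat (rowsPlus P t)) (t n))) ∧
      (∀ v : ℕ × ℕ, (P ∈ B v.1 v.2 ↔ P ∈ O v)) ∧
      (∃ e, Red (f e (flat P)) (F (flat P)) ∧ Red (F (flat P)) (f e (flat P))) ∧
      (∃ e, Red (f e (flat (rowsPlus P t))) (F (flat (rowsPlus P t))) ∧
        Red (F (flat (rowsPlus P t))) (f e (flat (rowsPlus P t)))) ∧
      ∀ n, ∃ j, Red (f j (P n)) (F (P n)) ∧ Red (F (P n)) (f j (P n)) := by
    filter_upwards [ht, eventually_countable_forall.2 hBOe,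
      ev_preimage continuous_flat isOpenMap_flat hf, ev_preimage hqc hqo hf,
      eventually_countable_forall.2 fun n =>
        ev_preimage (continuous_apply n) (isOpenMap_eval n) hf]
      with P h1 h2 h3 h4 h5 using ⟨h1, h2, h3, h4, h5⟩
  obtain ⟨S, hSo, hSd, hSc, hSsub⟩ := mem_residual_iff.1 hgood
  obtain ⟨D, hD⟩ := (hSc.insert Set.univ).exists_eq_range (Set.insert_nonempty _ _)
  have hDmem : ∀ k, D k = Set.univ ∨ D k ∈ S := fun k => by
    have : D k ∈ insert Set.univ S := by rw [hD]; exact Set.mem_range_self k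
    exact this
  obtain ⟨P, hPD, hPbad⟩ := exists_fusion (D := D)
    (fun k => (hDmem k).elim (fun h => h ▸ isOpen_univ) (hSo _))
    (fun k => (hDmem k).elim (fun h => h ▸ dense_univ) (hSd _))
    (O := fun i j => O (i, j)) (fun i j => hO (i, j)) hE
  obtain ⟨hg, hiffO, ⟨e, he⟩, ⟨e', he'⟩, hval⟩ := hSsub (fun u hu => by
    obtain ⟨k, hk⟩ : u ∈ Set.range D := hD ▸ Set.mem_insert_of_mem _ hu
    exact hk ▸ hPD k)
  -- the pair attached to this point
  obtain ⟨i, hi⟩ : ∃ i, i = Nat.pair e e' := ⟨_, rfl⟩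
  have htrue : IsGlb (F (P i)) (f i.unpair.1 (flat P))
      (join (f i.unpair.2 (flat (rowsPlus P t))) (F (t i))) := by
    rw [hi, Nat.unpair_pair]
    rw [← hi]
    refine isGlb_congr (isGlb_congr (isGlb_image hF (hg i)) ⟨red_refl _, red_refl _⟩
      ⟨red_refl _, red_refl _⟩ (red_image_join hF _ _)) ⟨red_refl _, red_refl _⟩
      ⟨he.2, he.1⟩ ?_
    exact ⟨red_join (red_trans he'.2 (red_join_left _ _)) (red_join_right _ _),
      red_join (red_trans he'.1 (red_join_left _ _)) (red_join_right _ _)⟩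
  obtain ⟨j, hj⟩ := hval i
  have hjB : P ∈ B i j := (hB i j P).2
    (isGlb_congr htrue ⟨hj.2, hj.1⟩ ⟨red_refl _, red_refl _⟩ ⟨red_refl _, red_refl _⟩)
  obtain ⟨j0, hj0, hbad⟩ := hPbad i ⟨j, (hiffO (i, j)).1 hjB⟩
  exact hbad ((hEdef _ _).2 (isGlb_unique ((hB i j0 P).1 ((hiffO (i, j0)).2 hj0)) htrue))

/-- Every automorphism agrees up to equivalence with a Borel map on a residual set. -/
theorem genericallyBorel {F : (ℕ → Bool) → (ℕ → Bool)} (hF : IsRep F) : GenericallyBorel F :=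
  genericallyBorel_of_glb_rows exists_glb_rows hF

end Vale.Agent.P327.Deg
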